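import Mathlib

/-!
Fourier analysis on the biased discrete cube; a point of the cube is the finset of its
coordinates with value one.
-/

noncomputable section

open Finset

set_option linter.unusedSectionVars false

namespace Vale.Agent.P063

variable {ι : Type*} [Fintype ι] [DecidableEq ι]

/-- weight of one coordinate -/
def w1 (p : ℝ) (x : Finset ι) (e : ι) : ℝ := if e ∈ x then p else 1 - p

def wt (p : ℝ) (x : Finset ι) : ℝ := ∏ e, w1 p x e

def E (p : ℝ) (F : Finset ι → ℝ) : ℝ := ∑ x, wt p x * F x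

def sd (p : ℝ) : ℝ := Real.sqrt (p * (1 - p))

def chi (p : ℝ) (e : ι) (x : Finset ι) : ℝ := (if e ∈ x then 1 - p else -p) / sd p

def chiS (p : ℝ) (T x : Finset ι) : ℝ := ∏ e ∈ T, chi p e x

def coef (p : ℝ) (F : Finset ι → ℝ) (T : Finset ι) : ℝ := E p (fun x => F x * chiS p T x)

def poly (p : ℝ) (c : Finset ι → ℝ) (x : Finset ι) : ℝ := ∑ T, c T * chiS p T x

def diff (e : ι) (F : Finset ι → ℝ) (x : Finset ι) : ℝ := F (insert e x) - F (x.erase e)

variable {p : ℝ}

lemma sd_pos (h0 : 0 < p) (h1 : p < 1) : 0 < sd p :=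
  Real.sqrt_pos.2 (mul_pos h0 (by linarith))

lemma sd_sq (h0 : 0 < p) (h1 : p < 1) : sd p ^ 2 = p * (1 - p) :=
  Real.sq_sqrt (mul_pos h0 (by linarith)).le

lemma wt_nonneg (h0 : 0 ≤ p) (h1 : p ≤ 1) (x : Finset ι) : 0 ≤ wt p x :=
  Finset.prod_nonneg fun e _ => by unfold w1; split <;> linarith

lemma E_prod (g : ι → Bool → ℝ) :
    E p (fun x : Finset ι => ∏ e, g e (decide (e ∈ x)))
      = ∏ e, (p * g e true + (1 - p) * g e false) := by
  unfold E wt w1
  rw [Finset.prod_add, Finset.powerset_univ]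
  refine Finset.sum_congr rfl fun x _ => ?_
  rw [← Finset.prod_mul_distrib, ← Finset.prod_sdiff (Finset.subset_univ x), mul_comm]
  congr 1
  · exact Finset.prod_congr rfl fun e he => by simp [he]
  · exact Finset.prod_congr rfl fun e he => by simp [(Finset.mem_sdiff.1 he).2]

lemma E_one : E p (fun _ : Finset ι => (1 : ℝ)) = 1 := by
  simpa using E_prod (ι := ι) (p := p) (fun _ _ => (1 : ℝ))

lemma E_add (F G : Finset ι → ℝ) : E p (fun x => F x + G x) = E p F + E p G := by
  simp [E, mul_add, Finset.sum_add_distrib]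

lemma E_sub (F G : Finset ι → ℝ) : E p (fun x => F x - G x) = E p F - E p G := by
  simp [E, mul_sub, Finset.sum_sub_distrib]

lemma E_const_mul (c : ℝ) (F : Finset ι → ℝ) : E p (fun x => c * F x) = c * E p F := by
  simp [E, Finset.mul_sum, mul_left_comm]

lemma E_mul_const (c : ℝ) (F : Finset ι → ℝ) : E p (fun x => F x * c) = E p F * c := by
  simp [E, Finset.sum_mul, mul_assoc]

lemma E_div_const (c : ℝ) (F : Finset ι → ℝ) : E p (fun x => F x / c) = E p F / c := by
  simp [E, Finset.sum_div, mul_div_assoc]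

lemma E_const (c : ℝ) : E p (fun _ : Finset ι => c) = c := by
  have := E_const_mul (p := p) c (fun _ : Finset ι => (1:ℝ))
  simpa [E_one] using this

lemma E_sum {α : Type*} (s : Finset α) (F : α → Finset ι → ℝ) :
    E p (fun x => ∑ i ∈ s, F i x) = ∑ i ∈ s, E p (F i) := by
  simp only [E, Finset.mul_sum]
  exact Finset.sum_comm

lemma E_congr {F G : Finset ι → ℝ} (h : ∀ x, F x = G x) : E p F = E p G :=
  Finset.sum_congr rfl fun x _ => by rw [h x]

lemma E_mono (h0 : 0 ≤ p) (h1 : p ≤ 1) {F G : Finset ι → ℝ} (h : ∀ x, F x ≤ G x) :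
    E p F ≤ E p G :=
  Finset.sum_le_sum fun x _ => mul_le_mul_of_nonneg_left (h x) (wt_nonneg h0 h1 x)

lemma E_nonneg (h0 : 0 ≤ p) (h1 : p ≤ 1) {F : Finset ι → ℝ} (h : ∀ x, 0 ≤ F x) :
    0 ≤ E p F :=
  Finset.sum_nonneg fun x _ => mul_nonneg (wt_nonneg h0 h1 x) (h x)

lemma E_sq_le (h0 : 0 ≤ p) (h1 : p ≤ 1) (a b : Finset ι → ℝ) :
    E p (fun x => a x * b x) ^ 2 ≤ E p (fun x => a x ^ 2) * E p (fun x => b x ^ 2) := by
  unfold E
  refine Finset.sum_sq_le_sum_mul_sum_of_sq_le_mul _
    (fun x _ => mul_nonneg (wt_nonneg h0 h1 x) (sq_nonneg _))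
    (fun x _ => mul_nonneg (wt_nonneg h0 h1 x) (sq_nonneg _)) (fun x _ => le_of_eq ?_)
  ring

/-- splitting off one coordinate -/
def wrest (p : ℝ) (e : ι) (x : Finset ι) : ℝ := ∏ i ∈ univ.erase e, w1 p x i

lemma E_split (e : ι) (F : Finset ι → ℝ) :
    E p F = ∑ x ∈ (univ.erase e).powerset,
      wrest p e x * (p * F (insert e x) + (1 - p) * F x) := by
  have hU : (Finset.univ : Finset (Finset ι)) = (insert e (univ.erase e)).powerset := by
    rw [Finset.insert_erase (Finset.mem_univ e), Finset.powerset_univ]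
  unfold E
  rw [hU, Finset.sum_powerset_insert (Finset.notMem_erase e univ), ← Finset.sum_add_distrib]
  refine Finset.sum_congr rfl fun x hx => ?_
  have he : e ∉ x := fun h => Finset.notMem_erase e univ (Finset.mem_powerset.1 hx h)
  have h1 : wt p x = (1 - p) * wrest p e x := by
    unfold wt wrest
    rw [← Finset.mul_prod_erase univ _ (Finset.mem_univ e)]
    simp [w1, he]
  have h2 : wt p (insert e x) = p * wrest p e x := by
    unfold wt wrest
    rw [← Finset.mul_prod_erase univ _ (Finset.mem_univ e)]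
    congr 1
    · simp [w1]
    · refine Finset.prod_congr rfl fun i hi => ?_
      have : i ≠ e := Finset.ne_of_mem_erase hi
      simp [w1, this]
  rw [h1, h2]
  ring

lemma E_avg (e : ι) (F : Finset ι → ℝ) :
    E p F = E p (fun x => p * F (insert e x) + (1 - p) * F (x.erase e)) := by
  rw [E_split e F, E_split e (fun x => p * F (insert e x) + (1 - p) * F (x.erase e))]
  refine Finset.sum_congr rfl fun x hx => ?_
  have he : e ∉ x := fun h => Finset.notMem_erase e univ (Finset.mem_powerset.1 hx h)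
  rw [Finset.insert_idem, Finset.erase_insert he, Finset.erase_eq_of_notMem he]
  ring

lemma chi_insert_self (e : ι) (x : Finset ι) : chi p e (insert e x) = (1 - p) / sd p := by
  simp [chi]

lemma chi_erase_self (e : ι) (x : Finset ι) : chi p e (x.erase e) = -p / sd p := by
  simp [chi]

lemma chi_insert_ne {e i : ι} (h : i ≠ e) (x : Finset ι) :
    chi p i (insert e x) = chi p i x := by
  simp [chi, h]

lemma chi_erase_ne {e i : ι} (h : i ≠ e) (x : Finset ι) :
    chi p i (x.erase e) = chi p i x := by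
  simp [chi, h]

lemma chiS_insert_of_notMem {e : ι} {T : Finset ι} (h : e ∉ T) (x : Finset ι) :
    chiS p T (insert e x) = chiS p T x :=
  Finset.prod_congr rfl fun i hi => chi_insert_ne (show i ≠ e from fun hie => h (hie ▸ hi)) x

lemma chiS_erase_of_notMem {e : ι} {T : Finset ι} (h : e ∉ T) (x : Finset ι) :
    chiS p T (x.erase e) = chiS p T x :=
  Finset.prod_congr rfl fun i hi => chi_erase_ne (show i ≠ e from fun hie => h (hie ▸ hi)) x

lemma chiS_union {S T : Finset ι} (h : Disjoint S T) (x : Finset ι) :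
    chiS p (S ∪ T) x = chiS p S x * chiS p T x := Finset.prod_union h

lemma orth (h0 : 0 < p) (h1 : p < 1) (S T : Finset ι) :
    E p (fun x => chiS p S x * chiS p T x) = if S = T then 1 else 0 := by
  have hs := sd_pos h0 h1
  have hsq := sd_sq h0 h1
  let v : Bool → ℝ := fun b => (if b then 1 - p else -p) / sd p
  let g : ι → Bool → ℝ := fun e b =>
    (if e ∈ S then v b else 1) * (if e ∈ T then v b else 1)
  have key : ∀ x : Finset ι, chiS p S x * chiS p T x = ∏ e, g e (decide (e ∈ x)) := by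
    intro x
    simp only [g, Finset.prod_mul_distrib, Finset.prod_ite_mem, Finset.univ_inter]
    simp [chiS, chi, v]
  rw [E_congr key, E_prod]
  by_cases h : S = T
  · subst h
    rw [if_pos rfl]
    refine Finset.prod_eq_one fun e _ => ?_
    by_cases he : e ∈ S
    · simp only [g, v, if_pos he, if_true, Bool.false_eq_true, if_false]
      field_simp
      linear_combination (-1 : ℝ) * hsq
    · simp [g, he]
  · rw [if_neg h]
    obtain ⟨e, he⟩ : ∃ e, ¬(e ∈ S ↔ e ∈ T) := by
      by_contra hc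
      push Not at hc
      exact h (Finset.ext hc)
    refine Finset.prod_eq_zero (Finset.mem_univ e) ?_
    by_cases he1 : e ∈ S <;> by_cases he2 : e ∈ T <;> simp [g, v, he1, he2] at he ⊢ <;> ring

lemma poly_expansion (h0 : 0 < p) (h1 : p < 1) (F : Finset ι → ℝ) (x : Finset ι) :
    poly p (coef p F) x = F x := by
  have hs := sd_pos h0 h1
  have hsq := sd_sq h0 h1
  have h3 : ∀ y : Finset ι, ∑ T, chiS p T y * chiS p T x
      = ∏ e, (chi p e y * chi p e x + 1) := by
    intro y
    rw [Finset.prod_add, Finset.powerset_univ]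
    simp [chiS, Finset.prod_mul_distrib]
  have h4 : ∀ y : Finset ι, wt p y * ∏ e, (chi p e y * chi p e x + 1)
      = if y = x then 1 else 0 := by
    intro y
    by_cases h : y = x
    · subst h
      rw [if_pos rfl]
      unfold wt
      rw [← Finset.prod_mul_distrib]
      refine Finset.prod_eq_one fun e _ => ?_
      by_cases he : e ∈ y <;> simp only [w1, chi, he, if_true, if_false] <;> field_simp
      · linear_combination -(1 - p) * hsq
      · linear_combination -p * hsq
    · rw [if_neg h]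
      obtain ⟨e, he⟩ : ∃ e, ¬(e ∈ y ↔ e ∈ x) := by
        by_contra hc
        push Not at hc
        exact h (Finset.ext hc)
      refine mul_eq_zero_of_right _ (Finset.prod_eq_zero (Finset.mem_univ e) ?_)
      by_cases he1 : e ∈ y <;> by_cases he2 : e ∈ x <;>
        simp [chi, he1, he2] at he ⊢ <;> field_simp <;> linear_combination hsq
  unfold poly coef E
  simp only [Finset.sum_mul]
  rw [Finset.sum_comm]
  have : ∀ y : Finset ι, ∑ T, wt p y * (F y * chiS p T y) * chiS p T x
      = F y * (if y = x then 1 else 0) := by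
    intro y
    rw [← h4 y, ← h3 y, Finset.mul_sum, Finset.mul_sum]
    exact Finset.sum_congr rfl fun T _ => by ring
  simp [this]

lemma inner_poly (h0 : 0 < p) (h1 : p < 1) (c d : Finset ι → ℝ) :
    E p (fun x => poly p c x * poly p d x) = ∑ T, c T * d T := by
  have : ∀ x, poly p c x * poly p d x
      = ∑ S, ∑ T, c S * d T * (chiS p S x * chiS p T x) := by
    intro x
    unfold poly
    rw [Finset.sum_mul_sum]
    exact Finset.sum_congr rfl fun S _ => Finset.sum_congr rfl fun T _ => by ring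
  rw [E_congr this, E_sum]
  refine Finset.sum_congr rfl fun S _ => ?_
  rw [E_sum]
  simp [E_const_mul, orth h0 h1]

lemma norm_poly (h0 : 0 < p) (h1 : p < 1) (c : Finset ι → ℝ) :
    E p (fun x => poly p c x ^ 2) = ∑ T, c T ^ 2 := by
  simp only [pow_two]
  exact inner_poly h0 h1 c c

lemma coef_poly (h0 : 0 < p) (h1 : p < 1) (c : Finset ι → ℝ) (T : Finset ι) :
    coef p (poly p c) T = c T := by
  have h : ∀ x, chiS p T x = poly p (fun S => if S = T then 1 else 0) x := by
    intro x; simp [poly]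
  unfold coef
  rw [E_congr (fun x => by rw [h x]), inner_poly h0 h1]
  simp

lemma parseval (h0 : 0 < p) (h1 : p < 1) (F : Finset ι → ℝ) :
    ∑ T, coef p F T ^ 2 = E p (fun x => F x ^ 2) := by
  rw [← norm_poly h0 h1]
  exact E_congr fun x => by rw [poly_expansion h0 h1]

lemma coef_empty (F : Finset ι → ℝ) : coef p F ∅ = E p F := by
  simp [coef, chiS]

lemma sum_notMem_reindex (e : ι) (G : Finset ι → ℝ) :
    ∑ R : Finset ι, (if e ∈ R then 0 else G (insert e R))
      = ∑ T ∈ univ.filter (fun T => e ∈ T), G T := by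
  rw [Finset.sum_ite, Finset.sum_const_zero, zero_add]
  refine Finset.sum_nbij' (fun R => insert e R) (fun T => T.erase e) ?_ ?_ ?_ ?_ ?_
  · intro R hR; simp
  · intro T hT; simp
  · intro R hR; simp at hR; simp [hR]
  · intro T hT; simp at hT; simp [hT]
  · intro R hR; rfl

lemma diff_poly (h0 : 0 < p) (h1 : p < 1) (e : ι) (c : Finset ι → ℝ) (x : Finset ι) :
    diff e (poly p c) x
      = (sd p)⁻¹ * poly p (fun R => if e ∈ R then 0 else c (insert e R)) x := by
  have hs := sd_pos h0 h1
  unfold diff poly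
  rw [← Finset.sum_sub_distrib]
  have : ∀ T : Finset ι, c T * chiS p T (insert e x) - c T * chiS p T (x.erase e)
      = if e ∈ T then (sd p)⁻¹ * (c T * chiS p (T.erase e) x) else 0 := by
    intro T
    by_cases he : e ∈ T
    · rw [if_pos he]
      unfold chiS
      rw [← Finset.mul_prod_erase T _ he, ← Finset.mul_prod_erase T (fun i => chi p i (x.erase e)) he,
        chi_insert_self, chi_erase_self]
      have a := chiS_insert_of_notMem (p := p) (Finset.notMem_erase e T) x
      have b := chiS_erase_of_notMem (p := p) (Finset.notMem_erase e T) x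
      unfold chiS at a b
      rw [a, b]
      field_simp
      ring
    · rw [if_neg he, chiS_insert_of_notMem he, chiS_erase_of_notMem he, sub_self]
  simp only [this]
  rw [← Finset.sum_filter, Finset.mul_sum,
    ← sum_notMem_reindex e (fun T => (sd p)⁻¹ * (c T * chiS p (T.erase e) x))]
  refine Finset.sum_congr rfl fun R _ => ?_
  by_cases he : e ∈ R
  · simp [he]
  · simp [he]

lemma diff_eq_poly (h0 : 0 < p) (h1 : p < 1) (e : ι) (F : Finset ι → ℝ) (x : Finset ι) :
    diff e F x
      = (sd p)⁻¹ * poly p (fun R => if e ∈ R then 0 else coef p F (insert e R)) x := by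
  rw [← diff_poly h0 h1 e]
  simp [diff, poly_expansion h0 h1]

/-- influence of a coordinate, as a Fourier weight -/
def infl (p : ℝ) (F : Finset ι → ℝ) (e : ι) : ℝ :=
  ∑ T ∈ univ.filter (fun T => e ∈ T), coef p F T ^ 2

lemma infl_eq (h0 : 0 < p) (h1 : p < 1) (e : ι) (F : Finset ι → ℝ) :
    infl p F e = p * (1 - p) * E p (fun x => diff e F x ^ 2) := by
  have hs := sd_pos h0 h1
  rw [E_congr (fun x => by rw [diff_eq_poly h0 h1 e F x, mul_pow])]
  rw [E_const_mul, norm_poly h0 h1, ← sd_sq h0 h1]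
  rw [← mul_assoc, inv_pow, mul_inv_cancel₀ (by positivity), one_mul]
  unfold infl
  rw [← sum_notMem_reindex e]
  refine Finset.sum_congr rfl fun R _ => ?_
  by_cases he : e ∈ R <;> simp [he]

lemma infl_nonneg (F : Finset ι → ℝ) (e : ι) : 0 ≤ infl p F e :=
  Finset.sum_nonneg fun _ _ => sq_nonneg _

lemma sum_infl (F : Finset ι → ℝ) :
    ∑ e, infl p F e = ∑ T, (T.card : ℝ) * coef p F T ^ 2 := by
  unfold infl
  simp only [Finset.sum_filter]
  rw [Finset.sum_comm]
  simp [Finset.sum_ite_mem]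

/-- the hypercontractive constant -/
def hc (p : ℝ) : ℝ := 16 / (p * (1 - p))

lemma hc_ge (h0 : 0 < p) (h1 : p < 1) : 64 ≤ hc p := by
  unfold hc
  rw [le_div_iff₀ (mul_pos h0 (by linarith))]
  nlinarith [sq_nonneg (p - 1 / 2)]

lemma two_point (h0 : 0 < p) (h1 : p < 1) (a b : ℝ) :
    p * (a + (1 - p) / sd p * b) ^ 4 + (1 - p) * (a + -p / sd p * b) ^ 4
      ≤ a ^ 4 + 8 * (a ^ 2 * b ^ 2) + 3 / (p * (1 - p)) * b ^ 4 := by
  have hs := sd_pos h0 h1
  have hsq := sd_sq h0 h1
  have hq : 0 < p * (1 - p) := mul_pos h0 (by linarith)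
  set s := sd p with hsdef
  have e1 : p * (a + (1 - p) / s * b) ^ 4 + (1 - p) * (a + -p / s * b) ^ 4
      = a ^ 4 + 6 * (a ^ 2 * b ^ 2) + 4 * a * b ^ 3 * ((1 - 2 * p) / s)
        + b ^ 4 * ((1 - 3 * (p * (1 - p))) / (p * (1 - p))) := by
    have hp : p ≠ 0 := h0.ne'
    have hq' : (1 - p) ≠ 0 := by linarith
    have e4 : s ^ 4 = (p * (1 - p)) ^ 2 := by
      calc s ^ 4 = (s ^ 2) ^ 2 := by ring
        _ = (p * (1 - p)) ^ 2 := by rw [hsq]
    have e3 : s ^ 3 = (p * (1 - p)) * s := by
      calc s ^ 3 = s ^ 2 * s := by ring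
        _ = (p * (1 - p)) * s := by rw [hsq]
    simp only [add_pow, Finset.sum_range_succ, Finset.sum_range_zero, mul_pow, div_pow, e3, e4,
      hsq, Nat.choose, pow_zero, pow_one]
    push_cast
    field_simp
    ring
  rw [e1]
  have h2 : 4 * a * b ^ 3 * ((1 - 2 * p) / s)
      ≤ 2 * (a ^ 2 * b ^ 2) + 2 * (b ^ 4 * ((1 - 2 * p) ^ 2 / (p * (1 - p)))) := by
    rw [← hsq, ← div_pow]
    nlinarith [sq_nonneg (a * b - b ^ 2 * ((1 - 2 * p) / s))]
  have h3 : b ^ 4 * ((1 - 3 * (p * (1 - p))) / (p * (1 - p)))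
      + 2 * (b ^ 4 * ((1 - 2 * p) ^ 2 / (p * (1 - p)))) ≤ 3 / (p * (1 - p)) * b ^ 4 := by
    rw [show b ^ 4 * ((1 - 3 * (p * (1 - p))) / (p * (1 - p)))
      + 2 * (b ^ 4 * ((1 - 2 * p) ^ 2 / (p * (1 - p))))
        = ((1 - 3 * (p * (1 - p))) + 2 * (1 - 2 * p) ^ 2) / (p * (1 - p)) * b ^ 4 by ring]
    gcongr
    nlinarith
  linarith

lemma poly_insert_coord (e : ι) (U : Finset ι) (he : e ∉ U) (c : Finset ι → ℝ) (x : Finset ι) :
    ∑ T ∈ (insert e U).powerset, c T * chiS p T x
      = (∑ T ∈ U.powerset, c T * chiS p T x)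
        + chi p e x * (∑ T ∈ U.powerset, c (insert e T) * chiS p T x) := by
  rw [Finset.sum_powerset_insert he, Finset.mul_sum]
  congr 1
  refine Finset.sum_congr rfl fun T hT => ?_
  have : e ∉ T := fun h => he (Finset.mem_powerset.1 hT h)
  unfold chiS
  rw [Finset.prod_insert this]
  ring

lemma bonami_aux (h0 : 0 < p) (h1 : p < 1) (U : Finset ι) :
    ∀ (k : ℕ) (c : Finset ι → ℝ), (∀ T ∈ U.powerset, c T ≠ 0 → T.card ≤ k) →
      E p (fun x => (∑ T ∈ U.powerset, c T * chiS p T x) ^ 4)
        ≤ hc p ^ k * (∑ T ∈ U.powerset, c T ^ 2) ^ 2 := by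
  have hA := hc_ge h0 h1
  induction U using Finset.induction with
  | empty =>
    intro k c _
    simp only [Finset.powerset_empty, Finset.sum_singleton, chiS, Finset.prod_empty, mul_one,
      E_const]
    calc c ∅ ^ 4 = 1 * (c ∅ ^ 2) ^ 2 := by ring
      _ ≤ _ := mul_le_mul_of_nonneg_right (one_le_pow₀ (by linarith)) (sq_nonneg _)
  | @insert e U he ih =>
    intro k c hcard
    have hca : ∀ T ∈ U.powerset, c T ≠ 0 → T.card ≤ k := fun T hT =>
      hcard T (Finset.powerset_mono.2 (Finset.subset_insert e U) hT)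
    have hcb : ∀ T ∈ U.powerset, c (insert e T) ≠ 0 → T.card + 1 ≤ k := by
      intro T hT hne
      have h' : e ∉ T := fun h => he (Finset.mem_powerset.1 hT h)
      have := hcard (insert e T)
        (Finset.mem_powerset.2 (Finset.insert_subset_insert e (Finset.mem_powerset.1 hT))) hne
      rwa [Finset.card_insert_of_notMem h'] at this
    rcases Nat.eq_zero_or_pos k with hk | hk
    · subst hk
      have hz : ∀ T ∈ U.powerset, c (insert e T) = 0 := fun T hT => by
        by_contra hne
        exact absurd (hcb T hT hne) (by omega)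
      have h2 : ∑ T ∈ (insert e U).powerset, c T ^ 2 = ∑ T ∈ U.powerset, c T ^ 2 := by
        rw [Finset.sum_powerset_insert he, Finset.sum_eq_zero
          (s := U.powerset) (f := fun T => c (insert e T) ^ 2)]
        · simp
        · intro T hT; simp [hz T hT]
      rw [h2]
      refine le_trans (le_of_eq (E_congr fun x => ?_)) (ih 0 c hca)
      rw [poly_insert_coord e U he]
      rw [Finset.sum_eq_zero (s := U.powerset) (f := fun T => c (insert e T) * chiS p T x)]
      · simp
      · intro T hT; simp [hz T hT]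
    obtain ⟨j, rfl⟩ := Nat.exists_eq_add_of_le' hk
    set a : Finset ι → ℝ := fun x => ∑ T ∈ U.powerset, c T * chiS p T x with ha
    set b : Finset ι → ℝ := fun x => ∑ T ∈ U.powerset, c (insert e T) * chiS p T x with hb
    have inv : ∀ (d : Finset ι → ℝ) (x : Finset ι),
        (∑ T ∈ U.powerset, d T * chiS p T (insert e x) = ∑ T ∈ U.powerset, d T * chiS p T x) ∧
        (∑ T ∈ U.powerset, d T * chiS p T (x.erase e) = ∑ T ∈ U.powerset, d T * chiS p T x) := by
      intro d x
      constructor <;> refine Finset.sum_congr rfl fun T hT => ?_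
      · rw [chiS_insert_of_notMem fun h => he (Finset.mem_powerset.1 hT h)]
      · rw [chiS_erase_of_notMem fun h => he (Finset.mem_powerset.1 hT h)]
    rw [E_congr (fun x => by rw [poly_insert_coord e U he]), E_avg e]
    simp only [(inv c _).1, (inv c _).2, (inv (fun T => c (insert e T)) _).1,
      (inv (fun T => c (insert e T)) _).2, chi_insert_self, chi_erase_self]
    set B := 3 / (p * (1 - p)) with hB
    refine le_trans (E_mono h0.le h1.le (G := fun x =>
      a x ^ 4 + 8 * (a x ^ 2 * b x ^ 2) + B * b x ^ 4) fun x => two_point h0 h1 (a x) (b x)) ?_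
    rw [E_add, E_add, E_const_mul, E_const_mul]
    set α := ∑ T ∈ U.powerset, c T ^ 2 with hα
    set β := ∑ T ∈ U.powerset, c (insert e T) ^ 2 with hβ
    rw [Finset.sum_powerset_insert he]
    have hαn : 0 ≤ α := Finset.sum_nonneg fun _ _ => sq_nonneg _
    have hβn : 0 ≤ β := Finset.sum_nonneg fun _ _ => sq_nonneg _
    set A := hc p with hAdef
    have Ha : E p (fun x => a x ^ 4) ≤ A ^ (j + 1) * α ^ 2 := ih (j + 1) c hca
    have Hb : E p (fun x => b x ^ 4) ≤ A ^ j * β ^ 2 :=
      ih j _ fun T hT hne => by have := hcb T hT hne; omega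
    have hn : 0 ≤ E p (fun x => a x ^ 2 * b x ^ 2) :=
      E_nonneg h0.le h1.le fun x => mul_nonneg (sq_nonneg _) (sq_nonneg _)
    have han : 0 ≤ E p (fun x => a x ^ 4) := E_nonneg h0.le h1.le fun x => by positivity
    have hbn : 0 ≤ E p (fun x => b x ^ 4) := E_nonneg h0.le h1.le fun x => by positivity
    have Hab : E p (fun x => a x ^ 2 * b x ^ 2) * 4 ≤ A ^ (j + 1) * (α * β) := by
      have h := E_sq_le h0.le h1.le (fun x => a x ^ 2) (fun x => b x ^ 2)
      simp only [← pow_mul] at h
      have h2 : E p (fun x => a x ^ 2 * b x ^ 2) ^ 2 ≤ (A ^ (j + 1) * α ^ 2) * (A ^ j * β ^ 2) :=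
        le_trans h (mul_le_mul Ha Hb hbn (by positivity))
      have hAp : 0 < A := by linarith
      refine (pow_le_pow_iff_left₀ (by positivity) (by positivity) (by norm_num : (2:ℕ) ≠ 0)).1 ?_
      calc (E p (fun x => a x ^ 2 * b x ^ 2) * 4) ^ 2
          = 16 * E p (fun x => a x ^ 2 * b x ^ 2) ^ 2 := by ring
        _ ≤ A * ((A ^ (j + 1) * α ^ 2) * (A ^ j * β ^ 2)) :=
            mul_le_mul (by linarith) h2 (sq_nonneg _) hAp.le
        _ = (A ^ (j + 1) * (α * β)) ^ 2 := by rw [pow_succ]; ring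
    have hBA : B ≤ A := by
      rw [hB, hAdef]; unfold hc
      exact div_le_div_of_nonneg_right (by norm_num) (mul_pos h0 (by linarith)).le
    have HbB : B * E p (fun x => b x ^ 4) ≤ A ^ (j + 1) * β ^ 2 := by
      calc B * E p (fun x => b x ^ 4) ≤ A * (A ^ j * β ^ 2) :=
            mul_le_mul hBA Hb hbn (by linarith)
        _ = _ := by ring
    have : A ^ (j + 1) * (α + β) ^ 2
        = A ^ (j + 1) * α ^ 2 + 2 * (A ^ (j + 1) * (α * β)) + A ^ (j + 1) * β ^ 2 := by ring
    linarith

lemma bonami (h0 : 0 < p) (h1 : p < 1) (k : ℕ) (c : Finset ι → ℝ)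
    (hk : ∀ T, c T ≠ 0 → T.card ≤ k) :
    E p (fun x => poly p c x ^ 4) ≤ hc p ^ k * (∑ T, c T ^ 2) ^ 2 := by
  have := bonami_aux h0 h1 (univ : Finset ι) k c (fun T _ => hk T)
  rwa [Finset.powerset_univ] at this

end Vale.Agent.P063
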