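import Mathlib

/-!
Hypergraph properties, the probability of a property and the width of its threshold.
-/

noncomputable section

namespace Vale.Agent.P063

/-- the `r`-element subsets of `Fin n`; a hypergraph is a finset of these -/
abbrev Edge (n r : ℕ) : Type := {e : Finset (Fin n) // e.card = r}

variable {n r : ℕ}

/-- the action of a permutation of the vertices on an edge -/
def edgeMap (σ : Equiv.Perm (Fin n)) (e : Edge n r) : Edge n r :=
  ⟨e.1.map σ.toEmbedding, by rw [Finset.card_map]; exact e.2⟩

/-- adding edges preserves the property -/
def IsIncreasing (P : Set (Finset (Edge n r))) : Prop :=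
  ∀ x y : Finset (Edge n r), x ⊆ y → x ∈ P → y ∈ P

/-- the property is invariant under relabelling the vertices -/
def IsInvariant (P : Set (Finset (Edge n r))) : Prop :=
  ∀ (σ : Equiv.Perm (Fin n)) (x : Finset (Edge n r)), x ∈ P → x.image (edgeMap σ) ∈ P

/-- probability of the property when each edge is present independently with probability `p` -/
def prob (p : ℝ) (P : Set (Finset (Edge n r))) : ℝ :=
  ∑ x : Finset (Edge n r), P.indicator
    (fun x => p ^ x.card * (1 - p) ^ (Fintype.card (Edge n r) - x.card)) x

/-- the least `p` in `[0,1]` at which the property has probability at least `a` -/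
def crit (a : ℝ) (P : Set (Finset (Edge n r))) : ℝ :=
  sInf {p : ℝ | p ∈ Set.Icc 0 1 ∧ a ≤ prob p P}

/-- the width of the threshold -/
def width (ε : ℝ) (P : Set (Finset (Edge n r))) : ℝ := crit (1 - ε) P - crit ε P

end Vale.Agent.P063
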