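import Vale.Agent.P063.Cube

/-!
Restrictions of Boolean functions, concentration on few coefficients, and the bound on the
Fourier weight of one level.
-/

noncomputable section

open Finset

set_option linter.unusedSectionVars false
set_option linter.unusedSimpArgs false

namespace Vale.Agent.P063

variable {ι : Type*} [Fintype ι] [DecidableEq ι] {p : ℝ}

def joinPt (L x z : Finset ι) : Finset ι := (x \ L) ∪ (z ∩ L)

/-- coefficient of `chiS S` after the coordinates outside `L` are fixed to those of `x` -/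
def rcoef (p : ℝ) (c : Finset ι → ℝ) (L S : Finset ι) (x : Finset ι) : ℝ :=
  poly p (fun R => if Disjoint R L then c (S ∪ R) else 0) x

lemma sum_disjoint_reindex {L S : Finset ι} (hS : S ⊆ L) (G : Finset ι → ℝ) :
    ∑ R : Finset ι, (if Disjoint R L then G (S ∪ R) else 0)
      = ∑ T : Finset ι, if T ∩ L = S then G T else 0 := by
  rw [← Finset.sum_filter, ← Finset.sum_filter]
  refine Finset.sum_nbij' (fun R => S ∪ R) (fun T => T \ L) ?_ ?_ ?_ ?_ ?_
  · intro R hR
    simp only [Finset.mem_coe, Finset.mem_filter, Finset.mem_univ, true_and] at hR ⊢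
    rw [Finset.union_inter_distrib_right, Finset.inter_eq_left.2 hS,
      Finset.disjoint_iff_inter_eq_empty.1 hR, Finset.union_empty]
  · intro T hT
    simp only [Finset.mem_coe, Finset.mem_filter, Finset.mem_univ, true_and] at hT ⊢
    exact Finset.sdiff_disjoint
  · intro R hR
    simp only [Finset.mem_coe, Finset.mem_filter, Finset.mem_univ, true_and] at hR
    rw [Finset.union_sdiff_distrib, Finset.sdiff_eq_empty_iff_subset.2 hS, Finset.empty_union,
      Finset.sdiff_eq_self_of_disjoint hR]
  · intro T hT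
    simp only [Finset.mem_coe, Finset.mem_filter, Finset.mem_univ, true_and] at hT
    subst hT
    rw [Finset.union_comm, Finset.sdiff_union_inter]
  · intro R hR; rfl

lemma chiS_joinPt (T L x z : Finset ι) :
    chiS p T (joinPt L x z) = chiS p (T \ L) x * chiS p (T ∩ L) z := by
  rw [← Finset.sdiff_union_inter T L]
  rw [chiS_union (Finset.disjoint_sdiff_inter T L)]
  rw [Finset.sdiff_union_inter T L]
  congr 1 <;> refine Finset.prod_congr rfl fun e he => ?_
  · have := (Finset.mem_sdiff.1 he).2
    simp [chi, joinPt, this]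
  · have := (Finset.mem_inter.1 he).2
    simp [chi, joinPt, this]

lemma sum_fiber (L : Finset ι) (H : Finset ι → ℝ) :
    ∑ S : Finset ι, (if S ⊆ L then ∑ T : Finset ι, (if T ∩ L = S then H T else 0) else 0)
      = ∑ T, H T := by
  have : ∀ S : Finset ι, (if S ⊆ L then ∑ T : Finset ι, (if T ∩ L = S then H T else 0) else 0)
      = ∑ T : Finset ι, (if T ∩ L = S then H T else 0) := by
    intro S
    by_cases h : S ⊆ L
    · rw [if_pos h]
    · rw [if_neg h]
      symm
      refine Finset.sum_eq_zero fun T _ => if_neg fun hT => h ?_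
      rw [← hT]; exact Finset.inter_subset_right
  simp only [this]
  rw [Finset.sum_comm]
  simp

lemma poly_joinPt (c : Finset ι → ℝ) (L x z : Finset ι) :
    poly p c (joinPt L x z) = poly p (fun S => if S ⊆ L then rcoef p c L S x else 0) z := by
  unfold poly
  rw [← sum_fiber L (fun T => c T * chiS p T (joinPt L x z))]
  refine Finset.sum_congr rfl fun S _ => ?_
  by_cases h : S ⊆ L
  · simp only [if_pos h]
    rw [← sum_disjoint_reindex h]
    unfold rcoef poly
    rw [Finset.sum_mul]
    refine Finset.sum_congr rfl fun R _ => ?_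
    by_cases hd : Disjoint R L
    · simp only [if_pos hd]
      rw [chiS_joinPt, Finset.union_sdiff_distrib,
        Finset.sdiff_eq_empty_iff_subset.2 h, Finset.empty_union,
        Finset.sdiff_eq_self_of_disjoint hd, Finset.union_inter_distrib_right,
        Finset.inter_eq_left.2 h, Finset.disjoint_iff_inter_eq_empty.1 hd, Finset.union_empty]
      ring
    · simp [hd]
  · simp [h]

lemma coef_restrict (h0 : 0 < p) (h1 : p < 1) (F : Finset ι → ℝ) (L x S : Finset ι) :
    coef p (fun z => F (joinPt L x z)) S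
      = if S ⊆ L then rcoef p (coef p F) L S x else 0 := by
  have : ∀ z, F (joinPt L x z)
      = poly p (fun S => if S ⊆ L then rcoef p (coef p F) L S x else 0) z := by
    intro z; rw [← poly_joinPt, poly_expansion h0 h1]
  rw [show (fun z => F (joinPt L x z)) = _ from funext this, coef_poly h0 h1]

lemma E_rcoef_mul (h0 : 0 < p) (h1 : p < 1) (c d : Finset ι → ℝ) {L S : Finset ι} (hS : S ⊆ L) :
    E p (fun x => rcoef p c L S x * rcoef p d L S x)
      = ∑ T : Finset ι, if T ∩ L = S then c T * d T else 0 := by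
  rw [← sum_disjoint_reindex hS (fun T => c T * d T)]
  unfold rcoef
  rw [inner_poly h0 h1]
  refine Finset.sum_congr rfl fun R _ => ?_
  split <;> simp

lemma E_rcoef_sq (h0 : 0 < p) (h1 : p < 1) (c : Finset ι → ℝ) {L S : Finset ι} (hS : S ⊆ L) :
    E p (fun x => rcoef p c L S x ^ 2) = ∑ T : Finset ι, if T ∩ L = S then c T ^ 2 else 0 := by
  simp only [pow_two]
  exact E_rcoef_mul h0 h1 c c hS

lemma low_influence (h0 : 0 < p) (h1 : p < 1) (g : Finset ι → ℝ)
    (hg : ∀ z, g z = 0 ∨ g z = 1) (D : ℕ) (e : ι) {θ : ℝ} (hθ : 0 ≤ θ)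
    (he : infl p g e ≤ θ ^ 2) :
    ∑ S ∈ univ.filter (fun S => e ∈ S), (if S.card ≤ D then coef p g S ^ 2 else 0)
      ≤ hc p ^ (D + 1) * θ * infl p g e := by
  have hA := hc_ge h0 h1
  have hs := sd_pos h0 h1
  have hpq : 0 < p * (1 - p) := mul_pos h0 (by linarith)
  set W := ∑ S ∈ univ.filter (fun S => e ∈ S), (if S.card ≤ D then coef p g S ^ 2 else 0) with hW
  set π := E p (fun z => diff e g z ^ 2) with hπ
  have hI : infl p g e = p * (1 - p) * π := infl_eq h0 h1 e g
  have hW0 : 0 ≤ W := Finset.sum_nonneg fun S _ => by split <;> positivity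
  have hπ0 : 0 ≤ π := E_nonneg h0.le h1.le fun z => sq_nonneg _
  set c : Finset ι → ℝ := fun R =>
    if e ∈ R then 0 else if (insert e R).card ≤ D then coef p g (insert e R) else 0 with hc'
  have hsum : ∀ d : Finset ι → ℝ,
      ∑ R : Finset ι, (if e ∈ R then 0 else d (insert e R)) * c R
        = ∑ S ∈ univ.filter (fun S => e ∈ S), d S * (if S.card ≤ D then coef p g S else 0) := by
    intro d
    rw [← sum_notMem_reindex e]
    refine Finset.sum_congr rfl fun R _ => ?_
    by_cases h : e ∈ R <;> simp [hc', h]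
  have hcc : ∑ R, c R ^ 2 = W := by
    rw [hW, ← sum_notMem_reindex e]
    refine Finset.sum_congr rfl fun R _ => ?_
    by_cases h : e ∈ R
    · simp [hc', h]
    · by_cases h2 : (insert e R).card ≤ D <;> simp [hc', h, h2]
  have hcard : ∀ R, c R ≠ 0 → R.card ≤ D := by
    intro R hR
    by_cases h : e ∈ R
    · simp [hc', h] at hR
    · by_cases h2 : (insert e R).card ≤ D
      · exact le_trans (Finset.card_le_card (Finset.subset_insert e R)) h2
      · exact (hR (by simp only [hc', if_neg h, if_neg h2])).elim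
  set u := E p (fun z => diff e g z * poly p c z) with hu
  have hWu : u = (sd p)⁻¹ * W := by
    rw [hu, E_congr (fun z => by rw [diff_eq_poly h0 h1 e g z, mul_assoc]), E_const_mul,
      inner_poly h0 h1, hsum]
    congr 1
    refine Finset.sum_congr rfl fun S _ => ?_
    split <;> ring
  have hd3 : ∀ z, diff e g z * (diff e g z ^ 2) = diff e g z := by
    intro z
    unfold diff
    rcases hg (insert e z) with h | h <;> rcases hg (z.erase e) with h' | h' <;> rw [h, h'] <;>
      norm_num
  set v := E p (fun z => diff e g z ^ 2 * poly p c z ^ 2) with hv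
  have s1 : u ^ 2 ≤ π * v := by
    have := E_sq_le h0.le h1.le (fun z => diff e g z) (fun z => diff e g z ^ 2 * poly p c z)
    simp only [← mul_assoc, hd3] at this
    refine le_trans this (mul_le_mul_of_nonneg_left (le_of_eq (E_congr fun z => ?_)) hπ0)
    calc (diff e g z ^ 2 * poly p c z) ^ 2
        = diff e g z * (diff e g z * diff e g z ^ 2) * poly p c z ^ 2 := by ring
      _ = _ := by rw [hd3]; ring
  have s2 : v ^ 2 ≤ π * (hc p ^ D * W ^ 2) := by
    have := E_sq_le h0.le h1.le (fun z => diff e g z ^ 2) (fun z => poly p c z ^ 2)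
    refine le_trans this (mul_le_mul (le_of_eq (E_congr fun z => ?_)) ?_
      (E_nonneg h0.le h1.le fun z => sq_nonneg _) hπ0)
    · calc (diff e g z ^ 2) ^ 2 = diff e g z * (diff e g z * diff e g z ^ 2) := by ring
        _ = _ := by rw [hd3]; ring
    · simp only [← pow_mul]
      rw [← hcc]
      exact bonami h0 h1 D c hcard
  have hv0 : 0 ≤ v := E_nonneg h0.le h1.le fun z => by positivity
  have hW' : W = sd p * u := by rw [hWu]; field_simp
  have s3 : W ^ 4 ≤ (p * (1 - p)) ^ 2 * π ^ 3 * hc p ^ D * W ^ 2 := by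
    calc W ^ 4 = (sd p ^ 2) ^ 2 * (u ^ 2) ^ 2 := by rw [hW']; ring
      _ ≤ (sd p ^ 2) ^ 2 * (π * v) ^ 2 :=
          mul_le_mul_of_nonneg_left (pow_le_pow_left₀ (sq_nonneg _) s1 2) (by positivity)
      _ = (p * (1 - p)) ^ 2 * π ^ 2 * v ^ 2 := by rw [sd_sq h0 h1]; ring
      _ ≤ (p * (1 - p)) ^ 2 * π ^ 2 * (π * (hc p ^ D * W ^ 2)) :=
          mul_le_mul_of_nonneg_left s2 (by positivity)
      _ = _ := by ring
  rcases hW0.eq_or_lt with h | h
  · rw [← h]
    have := infl_nonneg (p := p) g e
    have : (0:ℝ) ≤ hc p := by linarith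
    positivity
  · have hA1 : 0 < hc p := by linarith
    have hi0 := infl_nonneg (p := p) g e
    refine (pow_le_pow_iff_left₀ hW0 (by positivity) (by norm_num : (2:ℕ) ≠ 0)).1 ?_
    have s4 : W ^ 2 ≤ (p * (1 - p)) ^ 2 * π ^ 3 * hc p ^ D := by
      refine le_of_mul_le_mul_right ?_ (pow_pos h 2)
      calc W ^ 2 * W ^ 2 = W ^ 4 := by ring
        _ ≤ _ := s3
    have s5 : π ≤ hc p * θ ^ 2 := by
      have : π * (p * (1 - p)) ≤ θ ^ 2 := by rw [mul_comm, ← hI]; exact he
      calc π ≤ θ ^ 2 / (p * (1 - p)) := (le_div_iff₀ hpq).2 this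
        _ ≤ 16 / (p * (1 - p)) * θ ^ 2 := by
            rw [div_mul_eq_mul_div]
            exact div_le_div_of_nonneg_right (by nlinarith [sq_nonneg θ]) hpq.le
        _ = _ := rfl
    calc W ^ 2 ≤ (p * (1 - p)) ^ 2 * π ^ 3 * hc p ^ D := s4
      _ = infl p g e ^ 2 * π * hc p ^ D := by rw [hI]; ring
      _ ≤ infl p g e ^ 2 * (hc p * θ ^ 2) * hc p ^ D := by gcongr
      _ = infl p g e ^ 2 * θ ^ 2 * hc p ^ (D + 1) := by ring
      _ ≤ infl p g e ^ 2 * θ ^ 2 * (hc p ^ (D + 1)) ^ 2 := by
          refine mul_le_mul_of_nonneg_left ?_ (by positivity)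
          exact le_self_pow₀ (one_le_pow₀ (by linarith)) (by norm_num)
      _ = _ := by ring

lemma card_small_subsets (U : Finset ι) (D : ℕ) :
    (U.powerset.filter (fun S => S.card ≤ D)).card ≤ (U.card + 1) ^ D := by
  have hsub : U.powerset.filter (fun S => S.card ≤ D)
      ⊆ (Finset.range (D + 1)).biUnion (fun i => U.powersetCard i) := by
    intro S hS
    simp only [Finset.mem_filter, Finset.mem_powerset] at hS
    simp only [Finset.mem_biUnion, Finset.mem_range, Finset.mem_powersetCard]
    exact ⟨S.card, by omega, hS.1, rfl⟩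
  refine le_trans (le_trans (Finset.card_le_card hsub) Finset.card_biUnion_le) ?_
  rw [add_pow]
  refine Finset.sum_le_sum fun i hi => ?_
  rw [Finset.card_powersetCard, one_pow, mul_one]
  calc U.card.choose i ≤ U.card ^ i := Nat.choose_le_pow ..
    _ ≤ U.card ^ i * D.choose i :=
        Nat.le_mul_of_pos_right _ (Nat.choose_pos (by simp at hi; omega))

lemma sum_coef_sq_le_one (h0 : 0 < p) (h1 : p < 1) (g : Finset ι → ℝ)
    (hg : ∀ z, g z = 0 ∨ g z = 1) (s : Finset (Finset ι)) :
    ∑ S ∈ s, coef p g S ^ 2 ≤ 1 := by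
  refine le_trans (Finset.sum_le_sum_of_subset_of_nonneg (Finset.subset_univ _)
    fun S _ _ => sq_nonneg _) ?_
  rw [parseval h0 h1, ← E_const (p := p) (ι := ι) (1:ℝ)]
  exact E_mono h0.le h1.le fun z => by rcases hg z with h | h <;> simp [h]

lemma small_coefficients (h0 : 0 < p) (h1 : p < 1) (g : Finset ι → ℝ)
    (hg : ∀ z, g z = 0 ∨ g z = 1) (D : ℕ) {θ M η : ℝ} (hθ : 0 < θ) (hM : 0 < M) (hη : 0 ≤ η) :
    ∑ S : Finset ι, (if S.card ≤ D ∧ coef p g S ^ 2 < η then coef p g S ^ 2 else 0)
      ≤ (hc p ^ (D + 1) * θ + 1 / (θ ^ 2 * M)) * (∑ e, infl p g e) + η * (M + 1) ^ D := by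
  have hA := hc_ge h0 h1
  set U := univ.filter (fun e => θ ^ 2 < infl p g e) with hU
  set I := ∑ e, infl p g e with hI
  have hI0 : 0 ≤ I := Finset.sum_nonneg fun e _ => infl_nonneg g e
  have hUI : (U.card : ℝ) * θ ^ 2 ≤ I := by
    calc (U.card : ℝ) * θ ^ 2 = ∑ e ∈ U, θ ^ 2 := by simp
      _ ≤ ∑ e ∈ U, infl p g e := Finset.sum_le_sum fun e he => by
          simp [hU] at he; exact he.le
      _ ≤ I := Finset.sum_le_sum_of_subset_of_nonneg (Finset.subset_univ _)
          fun e _ _ => infl_nonneg g e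
  set small := fun S : Finset ι =>
    if S.card ≤ D ∧ coef p g S ^ 2 < η then coef p g S ^ 2 else 0 with hs
  have hs0 : ∀ S, 0 ≤ small S := fun S => by simp only [hs]; split <;> positivity
  rw [← Finset.sum_filter_add_sum_filter_not univ (fun S : Finset ι => S ⊆ U)]
  have hout : ∑ S ∈ univ.filter (fun S => ¬S ⊆ U), small S ≤ hc p ^ (D + 1) * θ * I := by
    calc ∑ S ∈ univ.filter (fun S => ¬S ⊆ U), small S
        ≤ ∑ S ∈ univ.filter (fun S => ¬S ⊆ U),
            ∑ e ∈ univ.filter (fun e => e ∉ U), (if e ∈ S then small S else 0) := by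
          refine Finset.sum_le_sum fun S hS => ?_
          simp only [Finset.mem_filter, Finset.mem_univ, true_and] at hS
          obtain ⟨e, heS, heU⟩ := Finset.not_subset.1 hS
          refine le_trans (le_of_eq (if_pos heS).symm) (Finset.single_le_sum
            (f := fun e => if e ∈ S then small S else 0) (fun i _ => ?_) (by simp [heU]))
          split
          · exact hs0 S
          · exact le_rfl
      _ ≤ ∑ S : Finset ι,
            ∑ e ∈ univ.filter (fun e => e ∉ U), (if e ∈ S then small S else 0) :=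
          Finset.sum_le_sum_of_subset_of_nonneg (Finset.subset_univ _) fun S _ _ =>
            Finset.sum_nonneg fun e _ => by split <;> simp [hs0]
      _ = ∑ e ∈ univ.filter (fun e => e ∉ U), ∑ S ∈ univ.filter (fun S => e ∈ S), small S := by
          rw [Finset.sum_comm]
          exact Finset.sum_congr rfl fun e _ => (Finset.sum_filter _ _).symm
      _ ≤ ∑ e ∈ univ.filter (fun e => e ∉ U), hc p ^ (D + 1) * θ * infl p g e := by
          refine Finset.sum_le_sum fun e he => ?_
          simp [hU] at he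
          refine le_trans (Finset.sum_le_sum fun S _ => ?_) (low_influence h0 h1 g hg D e hθ.le he)
          simp only [hs]
          by_cases h : S.card ≤ D
          · rw [if_pos h]; split
            · exact le_rfl
            · exact sq_nonneg _
          · simp [h]
      _ ≤ ∑ e, hc p ^ (D + 1) * θ * infl p g e :=
          Finset.sum_le_sum_of_subset_of_nonneg (Finset.subset_univ _) fun e _ _ => by
            have := infl_nonneg (p := p) g e
            have : (0:ℝ) ≤ hc p := by linarith
            positivity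
      _ = _ := by rw [Finset.mul_sum]
  have hin : ∑ S ∈ univ.filter (fun S => S ⊆ U), small S
      ≤ I / (θ ^ 2 * M) + η * (M + 1) ^ D := by
    rcases le_or_gt (U.card : ℝ) M with hUM | hUM
    · calc ∑ S ∈ univ.filter (fun S => S ⊆ U), small S
          ≤ ∑ S ∈ univ.filter (fun S => S ⊆ U), (if S.card ≤ D then η else 0) :=
            Finset.sum_le_sum fun S _ => by
              simp only [hs]
              by_cases h : S.card ≤ D
              · rw [if_pos h]; split
                · rename_i h'; exact h'.2.le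
                · exact hη
              · simp [h]
        _ = η * ((U.powerset.filter (fun S => S.card ≤ D)).card : ℝ) := by
            rw [← Finset.sum_filter, Finset.filter_filter, Finset.sum_const, nsmul_eq_mul, mul_comm]
            congr 2
            congr 1
            ext S; simp
        _ ≤ η * ((U.card : ℝ) + 1) ^ D :=
            mul_le_mul_of_nonneg_left (by exact_mod_cast card_small_subsets U D) hη
        _ ≤ η * (M + 1) ^ D := by gcongr
        _ ≤ _ := le_add_of_nonneg_left (by positivity)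
    · refine le_trans (le_trans ?_ (sum_coef_sq_le_one h0 h1 g hg
        (univ.filter (fun S => S ⊆ U)))) (le_trans ?_ (le_add_of_nonneg_right (by positivity)))
      · refine Finset.sum_le_sum fun S _ => ?_
        simp only [hs]; split
        · exact le_rfl
        · exact sq_nonneg _
      · rw [le_div_iff₀ (by positivity)]
        nlinarith [sq_pos_of_pos hθ]
  calc _ ≤ (I / (θ ^ 2 * M) + η * (M + 1) ^ D) + hc p ^ (D + 1) * θ * I := add_le_add hin hout
    _ = _ := by ring

/-- weight of level `s` -/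
def lev (p : ℝ) (F : Finset ι → ℝ) (s : ℕ) : ℝ :=
  ∑ T : Finset ι, if T.card = s then coef p F T ^ 2 else 0

/-- weight of the sets of size `s` containing `S` -/
def bet (p : ℝ) (F : Finset ι → ℝ) (s : ℕ) (S : Finset ι) : ℝ :=
  ∑ T : Finset ι, if S ⊆ T ∧ T.card = s then coef p F T ^ 2 else 0

lemma level_one_restriction (h0 : 0 < p) (h1 : p < 1) (F : Finset ι → ℝ)
    (hF : ∀ z, F z = 0 ∨ F z = 1) (s D : ℕ) (Sg : Finset (Finset ι))
    (hD : ∀ S ∈ Sg, S.card ≤ D) {b : ℝ} (hb0 : 0 ≤ b) (hb : ∀ S ∈ Sg, bet p F s S ≤ b)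
    {θ M η lam δ : ℝ} (hθ : 0 < θ) (hM : 0 < M) (hη : 0 < η) (hlam : 0 < lam) (hδ : 0 < δ)
    (L : Finset ι) :
    ∑ T : Finset ι, (if T ∩ L ∈ Sg ∧ T.card = s then coef p F T ^ 2 else 0)
      ≤ ((hc p ^ (D + 1) * θ + 1 / (θ ^ 2 * M)) * (∑ e, infl p F e) + η * (M + 1) ^ D) / (2 * δ)
        + δ * lev p F s / 2 + lam + hc p ^ s * b * lev p F s / (η * lam ^ 3) := by
  have hA := hc_ge h0 h1
  set c := coef p F with hc'
  set c' : Finset ι → ℝ := fun T => if T.card = s then c T else 0 with hc''
  set SL := Sg.filter (fun S => S ⊆ L) with hSL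
  have hc2 : ∀ T, c T * c' T = if T.card = s then c T ^ 2 else 0 := by
    intro T; simp only [hc'']; split <;> ring
  have hc2' : ∀ T, c' T ^ 2 = if T.card = s then c T ^ 2 else 0 := by
    intro T; simp only [hc'']; split <;> ring
  have hlev : ∑ T, c' T ^ 2 = lev p F s := by
    simp only [hc2']; rfl
  have hlevL : ∀ (G : Finset ι → ℝ), (∀ T, 0 ≤ G T) →
      ∑ S ∈ SL, ∑ T : Finset ι, (if T ∩ L = S then G T else 0) ≤ ∑ T, G T := by
    intro G hG
    rw [Finset.sum_comm]
    refine Finset.sum_le_sum fun T _ => ?_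
    rw [Finset.sum_ite_eq]
    split
    · exact le_rfl
    · exact hG T
  have hmain : ∑ T : Finset ι, (if T ∩ L ∈ Sg ∧ T.card = s then c T ^ 2 else 0)
      = E p (fun x => ∑ S ∈ SL, rcoef p c L S x * rcoef p c' L S x) := by
    rw [E_sum, Finset.sum_congr rfl fun S hS =>
      E_rcoef_mul h0 h1 c c' (Finset.mem_filter.1 hS).2, Finset.sum_comm]
    refine Finset.sum_congr rfl fun T _ => ?_
    rw [Finset.sum_ite_eq, hc2]
    by_cases hg' : T ∩ L ∈ Sg <;> by_cases hs' : T.card = s <;>
      simp [hSL, hg', hs', Finset.inter_subset_right]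
  let g : Finset ι → Finset ι → ℝ := fun x z => F (joinPt L x z)
  have hgc : ∀ x, ∀ S ∈ SL, coef p (g x) S = rcoef p c L S x := fun x S hS => by
    rw [coef_restrict h0 h1, if_pos (Finset.mem_filter.1 hS).2]
  have hpt : ∀ x, ∑ S ∈ SL, rcoef p c L S x * rcoef p c' L S x
      ≤ ((hc p ^ (D + 1) * θ + 1 / (θ ^ 2 * M)) * (∑ e, infl p (g x) e) + η * (M + 1) ^ D)
          / (2 * δ)
        + (δ / 2) * (∑ S ∈ SL, rcoef p c' L S x ^ 2)
        + lam + (1 / (η * lam ^ 3)) * (∑ S ∈ SL, rcoef p c' L S x ^ 4) := by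
    intro x
    set a := fun S => rcoef p c L S x with ha
    set f := fun S => rcoef p c' L S x with hf
    rw [← Finset.sum_filter_add_sum_filter_not SL (fun S => a S ^ 2 < η)]
    set B := SL.filter (fun S => ¬a S ^ 2 < η) with hB
    have hsmall : ∑ S ∈ SL.filter (fun S => a S ^ 2 < η), a S * f S
        ≤ ((hc p ^ (D + 1) * θ + 1 / (θ ^ 2 * M)) * (∑ e, infl p (g x) e) + η * (M + 1) ^ D)
          / (2 * δ) + (δ / 2) * ∑ S ∈ SL, f S ^ 2 := by
      calc ∑ S ∈ SL.filter (fun S => a S ^ 2 < η), a S * f S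
          ≤ ∑ S ∈ SL.filter (fun S => a S ^ 2 < η), (a S ^ 2 / (2 * δ) + δ / 2 * f S ^ 2) :=
            Finset.sum_le_sum fun S _ => by
              have h := sq_nonneg (a S - δ * f S)
              rw [show a S ^ 2 / (2 * δ) + δ / 2 * f S ^ 2
                = (a S ^ 2 + δ ^ 2 * f S ^ 2) / (2 * δ) by field_simp, le_div_iff₀ (by positivity)]
              nlinarith
        _ ≤ _ := by
            rw [Finset.sum_add_distrib, ← Finset.sum_div, ← Finset.mul_sum]
            refine add_le_add (div_le_div_of_nonneg_right ?_ (by positivity))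
              (mul_le_mul_of_nonneg_left (Finset.sum_le_sum_of_subset_of_nonneg
                (Finset.filter_subset _ _) fun S _ _ => sq_nonneg _) (by positivity))
            refine le_trans ?_ (small_coefficients h0 h1 (g x) (fun z => hF _) D hθ hM hη.le)
            rw [← Finset.sum_filter]
            refine le_trans (le_of_eq (Finset.sum_congr rfl fun S hS => ?_))
              (Finset.sum_le_sum_of_subset_of_nonneg ?_ fun S _ _ => sq_nonneg _)
            · exact (congrArg (· ^ 2) (hgc x S (Finset.mem_filter.1 hS).1)).symm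
            · intro S hS
              obtain ⟨hS1, hS2⟩ := Finset.mem_filter.1 hS
              simp only [Finset.mem_filter, Finset.mem_univ, true_and]
              refine ⟨hD S (Finset.mem_filter.1 hS1).1, ?_⟩
              rw [hgc x S hS1]; exact hS2
    have hbig : ∑ S ∈ B, a S * f S
        ≤ lam + (1 / (η * lam ^ 3)) * ∑ S ∈ SL, f S ^ 4 := by
      set u := ∑ S ∈ B, a S * f S with hu
      have hZ0 : 0 ≤ ∑ S ∈ SL, f S ^ 4 := Finset.sum_nonneg fun S _ => by positivity
      rcases le_or_gt u lam with hul | hul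
      · exact le_trans hul (le_add_of_nonneg_right (by positivity))
      · have h1' : u ^ 2 ≤ (∑ S ∈ B, a S ^ 2) * ∑ S ∈ B, f S ^ 2 :=
          Finset.sum_mul_sq_le_sq_mul_sq B a f
        have haB : ∑ S ∈ B, a S ^ 2 ≤ 1 := by
          refine le_trans (le_of_eq (Finset.sum_congr rfl fun S hS => ?_))
            (sum_coef_sq_le_one h0 h1 (g x) (fun z => hF _) B)
          rw [hgc x S (Finset.mem_filter.1 hS).1]
        have h2' : (∑ S ∈ B, f S ^ 2) ^ 2 ≤ (B.card : ℝ) * ∑ S ∈ B, (f S ^ 2) ^ 2 :=
          sq_sum_le_card_mul_sum_sq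
        have hcard : (B.card : ℝ) * η ≤ 1 := by
          calc (B.card : ℝ) * η = ∑ S ∈ B, η := by simp
            _ ≤ ∑ S ∈ B, a S ^ 2 := Finset.sum_le_sum fun S hS =>
                not_lt.1 (Finset.mem_filter.1 hS).2
            _ ≤ 1 := haB
        have hB4 : ∑ S ∈ B, (f S ^ 2) ^ 2 ≤ ∑ S ∈ SL, f S ^ 4 := by
          refine le_trans (Finset.sum_le_sum_of_subset_of_nonneg (Finset.filter_subset _ _)
            fun S _ _ => sq_nonneg _) (le_of_eq (Finset.sum_congr rfl fun S _ => ?_))
          ring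
        have hf0 : 0 ≤ ∑ S ∈ B, f S ^ 2 := Finset.sum_nonneg fun S _ => sq_nonneg _
        have h3' : u ^ 4 * η ≤ ∑ S ∈ SL, f S ^ 4 := by
          calc u ^ 4 * η = (u ^ 2) ^ 2 * η := by ring
            _ ≤ (∑ S ∈ B, f S ^ 2) ^ 2 * η := by
                refine mul_le_mul_of_nonneg_right (pow_le_pow_left₀ (sq_nonneg _) ?_ 2) hη.le
                exact le_trans h1' (mul_le_of_le_one_left hf0 haB)
            _ ≤ (B.card : ℝ) * (∑ S ∈ B, (f S ^ 2) ^ 2) * η :=
                mul_le_mul_of_nonneg_right h2' hη.le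
            _ = ((B.card : ℝ) * η) * ∑ S ∈ B, (f S ^ 2) ^ 2 := by ring
            _ ≤ 1 * ∑ S ∈ SL, f S ^ 4 :=
                mul_le_mul hcard hB4 (Finset.sum_nonneg fun S _ => sq_nonneg _) zero_le_one
            _ = _ := one_mul _
        have h4' : u * (η * lam ^ 3) ≤ ∑ S ∈ SL, f S ^ 4 := by
          refine le_trans ?_ h3'
          have hu0 : 0 ≤ u := by linarith
          calc u * (η * lam ^ 3) ≤ u * (η * u ^ 3) := by gcongr
            _ = _ := by ring
        refine le_trans ?_ (le_add_of_nonneg_left hlam.le)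
        rw [one_div_mul_eq_div, le_div_iff₀ (by positivity)]
        exact h4'
    linarith
  rw [hmain]
  refine le_trans (E_mono h0.le h1.le hpt) ?_
  simp only [E_add, E_div_const, E_const_mul, E_const]
  have hIg : E p (fun x => ∑ e, infl p (g x) e) ≤ ∑ e, infl p F e := by
    rw [sum_infl]
    simp only [sum_infl]
    rw [E_sum]
    have : ∀ S : Finset ι, E p (fun x => (S.card : ℝ) * coef p (g x) S ^ 2)
        = if S ⊆ L then ∑ T : Finset ι, (if T ∩ L = S then ((T ∩ L).card : ℝ) * c T ^ 2 else 0)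
          else 0 := by
      intro S
      simp only [g, coef_restrict h0 h1]
      by_cases h : S ⊆ L
      · simp only [if_pos h]
        rw [E_const_mul, E_rcoef_sq h0 h1 c h, Finset.mul_sum]
        refine Finset.sum_congr rfl fun T _ => ?_
        split <;> simp_all
      · simp [h, E_const]
    rw [Finset.sum_congr rfl fun S _ => this S, sum_fiber]
    exact Finset.sum_le_sum fun T _ => mul_le_mul_of_nonneg_right
      (by exact_mod_cast Finset.card_le_card Finset.inter_subset_left) (sq_nonneg _)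
  have hf2 : E p (fun x => ∑ S ∈ SL, rcoef p c' L S x ^ 2) ≤ lev p F s := by
    rw [E_sum, Finset.sum_congr rfl fun S hS => E_rcoef_sq h0 h1 c' (Finset.mem_filter.1 hS).2, ← hlev]
    exact hlevL _ fun T => sq_nonneg _
  have hf4 : E p (fun x => ∑ S ∈ SL, rcoef p c' L S x ^ 4) ≤ hc p ^ s * b * lev p F s := by
    rw [E_sum]
    calc ∑ S ∈ SL, E p (fun x => rcoef p c' L S x ^ 4)
        ≤ ∑ S ∈ SL, hc p ^ s * b * ∑ T : Finset ι, (if T ∩ L = S then c' T ^ 2 else 0) := by
          refine Finset.sum_le_sum fun S hS => ?_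
          obtain ⟨hSg, hSL'⟩ := Finset.mem_filter.1 hS
          have := bonami h0 h1 s (fun R => if Disjoint R L then c' (S ∪ R) else 0) (fun R hR => by
            by_cases hd : Disjoint R L
            · simp only [hd, if_true, hc''] at hR
              by_cases hcard : (S ∪ R).card = s
              · exact hcard ▸ Finset.card_le_card Finset.subset_union_right
              · simp [hcard] at hR
            · simp [hd] at hR)
          refine le_trans this ?_
          have e1 : ∑ R : Finset ι, (if Disjoint R L then c' (S ∪ R) else 0) ^ 2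
              = ∑ T : Finset ι, (if T ∩ L = S then c' T ^ 2 else 0) := by
            rw [← sum_disjoint_reindex hSL' (fun T => c' T ^ 2)]
            exact Finset.sum_congr rfl fun R _ => by split <;> simp
          rw [e1]
          have hn : 0 ≤ ∑ T : Finset ι, (if T ∩ L = S then c' T ^ 2 else 0) :=
            Finset.sum_nonneg fun T _ => by split <;> positivity
          rw [pow_two (∑ T : Finset ι, (if T ∩ L = S then c' T ^ 2 else 0)), ← mul_assoc]
          refine mul_le_mul_of_nonneg_right (mul_le_mul_of_nonneg_left ?_ ?_) hn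
          · refine le_trans ?_ (hb S hSg)
            refine Finset.sum_le_sum fun T _ => ?_
            rw [hc2']
            by_cases hT : T ∩ L = S
            · have : S ⊆ T := hT ▸ Finset.inter_subset_left
              simp [hT, this, hc']
            · rw [if_neg hT]; split <;> positivity
          · have : (0:ℝ) ≤ hc p := by linarith
            positivity
      _ ≤ _ := by
          rw [← Finset.mul_sum, ← hlev]
          have : (0:ℝ) ≤ hc p := by linarith
          exact mul_le_mul_of_nonneg_left (hlevL _ fun T => sq_nonneg _) (by positivity)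
  have hk : 0 ≤ hc p ^ (D + 1) * θ + 1 / (θ ^ 2 * M) := by
    have : (0:ℝ) ≤ hc p := by linarith
    positivity
  refine add_le_add (add_le_add (add_le_add ?_ ?_) le_rfl) ?_
  · gcongr
  · calc _ ≤ δ / 2 * lev p F s := mul_le_mul_of_nonneg_left hf2 (by positivity)
      _ = _ := by ring
  · calc _ ≤ 1 / (η * lam ^ 3) * (hc p ^ s * b * lev p F s) :=
          mul_le_mul_of_nonneg_left hf4 (by positivity)
      _ = _ := by ring

lemma level_bound (h0 : 0 < p) (h1 : p < 1) {ρ : ℝ} (hρ0 : 0 ≤ ρ) (hρ1 : ρ ≤ 1)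
    (F : Finset ι → ℝ)
    (hF : ∀ z, F z = 0 ∨ F z = 1) (s D : ℕ) (Sg : Finset (Finset ι))
    (hD : ∀ S ∈ Sg, S.card ≤ D) {b : ℝ} (hb0 : 0 ≤ b) (hb : ∀ S ∈ Sg, bet p F s S ≤ b)
    {θ M η lam c0 : ℝ} (hθ : 0 < θ) (hM : 0 < M) (hη : 0 < η) (hlam : 0 < lam) (hc0 : 0 < c0)
    (hgood : ∀ T : Finset ι, T.card = s →
      c0 ≤ E ρ (fun L => if T ∩ L ∈ Sg then (1:ℝ) else 0)) :
    c0 / 2 * lev p F s
      ≤ ((hc p ^ (D + 1) * θ + 1 / (θ ^ 2 * M)) * (∑ e, infl p F e) + η * (M + 1) ^ D) / (2 * c0)
        + lam + hc p ^ s * b / (η * lam ^ 3) := by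
  have hA := hc_ge h0 h1
  have hlev0 : 0 ≤ lev p F s := Finset.sum_nonneg fun T _ => by split <;> positivity
  have hlev1 : lev p F s ≤ 1 := by
    unfold lev
    rw [← Finset.sum_filter]
    exact sum_coef_sq_le_one h0 h1 F hF _
  have key : c0 * lev p F s
      ≤ E ρ (fun L => ∑ T : Finset ι, (if T ∩ L ∈ Sg ∧ T.card = s then coef p F T ^ 2 else 0)) := by
    rw [E_sum]
    unfold lev
    rw [Finset.mul_sum]
    refine Finset.sum_le_sum fun T _ => ?_
    by_cases hT : T.card = s
    · rw [if_pos hT]
      refine le_trans (mul_le_mul_of_nonneg_right (hgood T hT) (sq_nonneg _)) (le_of_eq ?_)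
      rw [← E_mul_const]
      refine E_congr fun L => ?_
      by_cases h : T ∩ L ∈ Sg <;> simp [h, hT]
    · simp [hT, E_const]
  have h2 := le_trans key (E_mono hρ0 hρ1 fun L =>
    level_one_restriction h0 h1 F hF s D Sg hD hb0 hb hθ hM hη hlam hc0 L)
  rw [E_const] at h2
  have h3 : hc p ^ s * b * lev p F s / (η * lam ^ 3) ≤ hc p ^ s * b / (η * lam ^ 3) := by
    have : (0:ℝ) ≤ hc p := by linarith
    exact div_le_div_of_nonneg_right
      (mul_le_of_le_one_right (mul_nonneg (pow_nonneg this s) hb0) hlev1) (by positivity)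
  linarith

end Vale.Agent.P063
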