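import Vale.Agent.P063.Junta
import Vale.Agent.P063.Defs

/-!
Symmetry: a set of edges spanning `v` vertices carries at most a `1 / binom(n, v)` share of a level.
-/

noncomputable section

open Finset

set_option linter.unusedSectionVars false

namespace Vale.Agent.P063

section
variable {ι : Type*} [Fintype ι] [DecidableEq ι] {p : ℝ}

lemma coef_map (φ : ι ≃ ι) (F : Finset ι → ℝ) (hF : ∀ x, F (x.map φ.toEmbedding) = F x)
    (T : Finset ι) : coef p F (T.map φ.toEmbedding) = coef p F T := by
  unfold coef E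
  rw [← Fintype.sum_equiv φ.finsetCongr
    (fun x => wt p (x.map φ.toEmbedding) * (F (x.map φ.toEmbedding)
      * chiS p (T.map φ.toEmbedding) (x.map φ.toEmbedding))) _ (fun x => rfl)]
  refine Finset.sum_congr rfl fun x _ => ?_
  congr 1
  · unfold wt
    rw [← Equiv.prod_comp φ]
    refine Finset.prod_congr rfl fun e _ => ?_
    simp [w1]
  · rw [hF]
    congr 1
    unfold chiS
    rw [Finset.prod_map]
    refine Finset.prod_congr rfl fun e _ => ?_
    simp [chi]

lemma bet_map (φ : ι ≃ ι) (F : Finset ι → ℝ) (hF : ∀ x, F (x.map φ.toEmbedding) = F x)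
    (s : ℕ) (S : Finset ι) : bet p F s (S.map φ.toEmbedding) = bet p F s S := by
  unfold bet
  rw [← Fintype.sum_equiv φ.finsetCongr
    (fun T => if S.map φ.toEmbedding ⊆ T.map φ.toEmbedding ∧ (T.map φ.toEmbedding).card = s
      then coef p F (T.map φ.toEmbedding) ^ 2 else 0) _ (fun x => rfl)]
  refine Finset.sum_congr rfl fun T _ => ?_
  rw [coef_map φ F hF, Finset.card_map]
  simp only [Finset.map_subset_map]

lemma sum_bet (F : Finset ι → ℝ) (s j : ℕ) :
    ∑ S ∈ univ.filter (fun S : Finset ι => S.card = j), bet p F s S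
      = (s.choose j : ℝ) * lev p F s := by
  unfold bet lev
  rw [Finset.sum_comm, Finset.mul_sum]
  refine Finset.sum_congr rfl fun T _ => ?_
  by_cases hT : T.card = s
  · simp only [hT, and_true, if_true]
    rw [← Finset.sum_filter, Finset.filter_filter]
    have : univ.filter (fun S : Finset ι => S.card = j ∧ S ⊆ T) = T.powersetCard j := by
      ext S; simp [Finset.mem_powersetCard, and_comm]
    rw [this, Finset.sum_const, Finset.card_powersetCard, hT, nsmul_eq_mul]
  · simp [hT]

end

variable {n r : ℕ} {p : ℝ}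

/-- a permutation of vertices as a permutation of edges -/
def edgeEquiv (σ : Equiv.Perm (Fin n)) : Edge n r ≃ Edge n r where
  toFun := edgeMap σ
  invFun := edgeMap σ.symm
  left_inv e := by
    apply Subtype.ext
    simp [edgeMap, Finset.map_map]
  right_inv e := by
    apply Subtype.ext
    simp [edgeMap, Finset.map_map]

/-- vertices spanned by a set of edges -/
def spanV (S : Finset (Edge n r)) : Finset (Fin n) := S.biUnion (fun e => e.1)

lemma bet_le (h0 : 0 < p) (h1 : p < 1) (F : Finset (Edge n r) → ℝ)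
    (hF01 : ∀ z, F z = 0 ∨ F z = 1)
    (hF : ∀ (σ : Equiv.Perm (Fin n)) (x : Finset (Edge n r)),
      F (x.map (edgeEquiv σ).toEmbedding) = F x)
    (s : ℕ) (S : Finset (Edge n r)) :
    bet p F s S * (n.choose (spanV S).card : ℝ) ≤ ((s : ℝ) + 1) ^ S.card := by
  set O := univ.image (fun σ : Equiv.Perm (Fin n) => S.map (edgeEquiv (r := r) σ).toEmbedding)
    with hO
  have hlev1 : lev p F s ≤ 1 := by
    unfold lev
    rw [← Finset.sum_filter]
    exact sum_coef_sq_le_one h0 h1 F hF01 _
  have hb0 : ∀ S', 0 ≤ bet p F s S' := fun S' =>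
    Finset.sum_nonneg fun T _ => by split <;> positivity
  have hsub : O ⊆ univ.filter (fun S' => S'.card = S.card) := by
    intro S' hS'
    obtain ⟨σ, _, rfl⟩ := Finset.mem_image.1 hS'
    simp
  have hsum : (O.card : ℝ) * bet p F s S ≤ ((s : ℝ) + 1) ^ S.card := by
    calc (O.card : ℝ) * bet p F s S = ∑ S' ∈ O, bet p F s S := by simp
      _ = ∑ S' ∈ O, bet p F s S' := by
          refine Finset.sum_congr rfl fun S' hS' => ?_
          obtain ⟨σ, _, rfl⟩ := Finset.mem_image.1 hS'
          exact (bet_map (edgeEquiv σ) F (hF σ) s S).symm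
      _ ≤ ∑ S' ∈ univ.filter (fun S' => S'.card = S.card), bet p F s S' :=
          Finset.sum_le_sum_of_subset_of_nonneg hsub fun S' _ _ => hb0 S'
      _ = (s.choose S.card : ℝ) * lev p F s := sum_bet F s S.card
      _ ≤ (s.choose S.card : ℝ) := mul_le_of_le_one_right (Nat.cast_nonneg _) hlev1
      _ ≤ (s : ℝ) ^ S.card := by exact_mod_cast Nat.choose_le_pow ..
      _ ≤ _ := pow_le_pow_left₀ (Nat.cast_nonneg _) (by linarith) _
  have horb : n.choose (spanV S).card ≤ O.card := by
    refine le_trans ?_ (Finset.card_image_le (f := spanV) (s := O))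
    rw [show n.choose (spanV S).card = ((univ : Finset (Fin n)).powersetCard (spanV S).card).card
      by simp]
    refine Finset.card_le_card fun W hW => ?_
    have hW' : W.card = (spanV S).card := (Finset.mem_powersetCard.1 hW).2
    let e : {x // x ∈ spanV S} ≃ {x // x ∈ W} := Finset.equivOfCardEq hW'.symm
    let σ : Equiv.Perm (Fin n) := e.extendSubtype
    refine Finset.mem_image.2 ⟨S.map (edgeEquiv σ).toEmbedding,
      Finset.mem_image.2 ⟨σ, Finset.mem_univ _, rfl⟩, ?_⟩
    refine Finset.eq_of_subset_of_card_le ?_ ?_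
    · intro x hx
      obtain ⟨d, hd, hxd⟩ := Finset.mem_biUnion.1 hx
      obtain ⟨d', hd', rfl⟩ := Finset.mem_map.1 hd
      change x ∈ d'.1.map σ.toEmbedding at hxd
      obtain ⟨y, hy, rfl⟩ := Finset.mem_map.1 hxd
      exact e.extendSubtype_mem y (Finset.mem_biUnion.2 ⟨d', hd', hy⟩)
    · rw [hW', ← Finset.card_map σ.toEmbedding]
      refine Finset.card_le_card fun x hx => ?_
      obtain ⟨y, hy, rfl⟩ := Finset.mem_map.1 hx
      obtain ⟨d, hd, hyd⟩ := Finset.mem_biUnion.1 hy
      refine Finset.mem_biUnion.2 ⟨edgeEquiv σ d, Finset.mem_map.2 ⟨d, hd, rfl⟩, ?_⟩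
      exact Finset.mem_map.2 ⟨y, hyd, rfl⟩
  calc bet p F s S * (n.choose (spanV S).card : ℝ) ≤ bet p F s S * (O.card : ℝ) :=
        mul_le_mul_of_nonneg_left (by exact_mod_cast horb) (hb0 S)
    _ = (O.card : ℝ) * bet p F s S := mul_comm _ _
    _ ≤ _ := hsum

lemma exp_le_choose {v : ℕ} {N : ℝ} (hN : Real.exp N = n) (hv : 2 * (v : ℝ) ≤ Real.exp (N / 2)) :
    Real.exp (v * N / 2) ≤ (n.choose v : ℝ) := by
  rcases Nat.eq_zero_or_pos v with hv0 | hv0
  · simp [hv0]
  have hn : (1:ℝ) ≤ n := by
    rcases Nat.eq_zero_or_pos n with h | h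
    · subst h; simp [Real.exp_ne_zero] at hN
    · exact_mod_cast h
  have hsq : Real.exp (N / 2) ^ 2 = n := by
    rw [← Real.exp_nat_mul, ← hN]; congr 1; push_cast; ring
  have hvn : 2 * v ≤ n := by
    have : 2 * (v:ℝ) ≤ n := by
      have h1 : (1:ℝ) ≤ Real.exp (N / 2) := by
        have : (1:ℝ) ≤ (v:ℝ) := by exact_mod_cast hv0
        linarith
      rw [← hsq]; nlinarith
    exact_mod_cast this
  have hvpos : (0:ℝ) < v := by exact_mod_cast hv0
  calc Real.exp (v * N / 2) = Real.exp (N / 2) ^ v := by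
        rw [← Real.exp_nat_mul]; congr 1; ring
    _ ≤ ((n:ℝ) / (2 * v)) ^ v := by
        refine pow_le_pow_left₀ (Real.exp_pos _).le ?_ v
        rw [le_div_iff₀ (by positivity), ← hsq, pow_two]
        exact mul_le_mul_of_nonneg_left hv (Real.exp_pos _).le
    _ = ((n:ℝ) / 2) ^ v / (v:ℝ) ^ v := by rw [← div_pow]; congr 1; field_simp
    _ ≤ ((n + 1 - v : ℕ) : ℝ) ^ v / (v.factorial : ℝ) := by
        refine div_le_div₀ (by positivity) (pow_le_pow_left₀ (by positivity) ?_ v) (by positivity) ?_
        · rw [div_le_iff₀ (by norm_num)]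
          exact_mod_cast (by omega : n ≤ (n + 1 - v) * 2)
        · exact_mod_cast Nat.factorial_le_pow v
    _ ≤ _ := Nat.pow_le_choose v n

end Vale.Agent.P063
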