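import Vale.Agent.P063.Span
import Vale.Agent.P063.Orbit

/-!
Assembly: derivative lower bound and threshold width.
-/

noncomputable section

open Finset

set_option linter.unusedSectionVars false

namespace Vale.Agent.P063

section
variable {ι : Type*} [Fintype ι] [DecidableEq ι]

lemma hasDerivAt_wt (p : ℝ) (x : Finset ι) :
    HasDerivAt (fun q => wt q x) (∑ e, wrest p e x * (if e ∈ x then (1:ℝ) else -1)) p := by
  unfold wt wrest
  have h : ∀ e : ι, HasDerivAt (fun q : ℝ => w1 q x e) (if e ∈ x then (1:ℝ) else -1) p := by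
    intro e
    by_cases he : e ∈ x <;> simp only [w1, he, if_true, if_false]
    · exact hasDerivAt_id p
    · simpa using (hasDerivAt_id p).const_sub 1
  simpa [smul_eq_mul] using HasDerivAt.fun_finsetProd (u := (univ : Finset ι)) (fun e _ => h e)

lemma hasDerivAt_E (p : ℝ) (F : Finset ι → ℝ) :
    HasDerivAt (fun q => E q F) (∑ e, E p (diff e F)) p := by
  have h := HasDerivAt.fun_sum (u := (univ : Finset (Finset ι)))
    (fun x _ => (hasDerivAt_wt p x).mul_const (F x))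
  refine h.congr_deriv ?_
  simp only [Finset.sum_mul]
  rw [Finset.sum_comm]
  refine Finset.sum_congr rfl fun e _ => ?_
  rw [E_split e (diff e F)]
  have hU : (univ : Finset (Finset ι)) = (insert e (univ.erase e)).powerset := by
    rw [Finset.insert_erase (Finset.mem_univ e), Finset.powerset_univ]
  rw [hU, Finset.sum_powerset_insert (Finset.notMem_erase e univ), ← Finset.sum_add_distrib]
  refine Finset.sum_congr rfl fun x hx => ?_
  have he : e ∉ x := fun h => Finset.notMem_erase e univ (Finset.mem_powerset.1 hx h)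
  have hw : wrest p e (insert e x) = wrest p e x := by
    unfold wrest
    refine Finset.prod_congr rfl fun i hi => ?_
    simp [w1, Finset.ne_of_mem_erase hi]
  simp [diff, he, hw, Finset.erase_insert he]
  ring

end

variable {n r : ℕ}

/-- indicator of a property -/
def ind (P : Set (Finset (Edge n r))) : Finset (Edge n r) → ℝ := P.indicator (fun _ => 1)

lemma ind_01 (P : Set (Finset (Edge n r))) (z : Finset (Edge n r)) :
    ind P z = 0 ∨ ind P z = 1 := by
  unfold ind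
  by_cases h : z ∈ P <;> simp [h]

lemma prob_eq (p : ℝ) (P : Set (Finset (Edge n r))) : prob p P = E p (ind P) := by
  unfold prob E ind
  refine Finset.sum_congr rfl fun x _ => ?_
  by_cases h : x ∈ P
  · rw [Set.indicator_of_mem h, Set.indicator_of_mem h, mul_one]
    unfold wt w1
    rw [Finset.prod_ite, Finset.prod_const, Finset.prod_const, Finset.filter_mem_eq_inter,
      Finset.univ_inter, Finset.filter_not, Finset.filter_mem_eq_inter, Finset.univ_inter,
      Finset.card_univ_sdiff]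
  · simp [h]

lemma ind_invariant (P : Set (Finset (Edge n r))) (hinv : IsInvariant P)
    (σ : Equiv.Perm (Fin n)) (x : Finset (Edge n r)) :
    ind P (x.map (edgeEquiv σ).toEmbedding) = ind P x := by
  have : x.map (edgeEquiv σ).toEmbedding ∈ P ↔ x ∈ P := by
    constructor
    · intro h
      have h2 := hinv σ.symm _ h
      rw [Finset.map_eq_image, Finset.image_image] at h2
      have : (edgeMap (r := r) σ.symm) ∘ (edgeEquiv σ).toEmbedding = id :=
        funext fun e => (edgeEquiv (r := r) σ).left_inv e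
      rwa [this, Finset.image_id] at h2
    · intro h
      rw [Finset.map_eq_image]
      exact hinv σ x h
  unfold ind
  by_cases h : x ∈ P <;> simp [h, this]

lemma diff_01 (P : Set (Finset (Edge n r))) (hmon : IsIncreasing P) (e : Edge n r)
    (z : Finset (Edge n r)) : diff e (ind P) z ^ 2 = diff e (ind P) z ∧ 0 ≤ diff e (ind P) z := by
  have h : z.erase e ∈ P → insert e z ∈ P :=
    hmon _ _ (le_trans (Finset.erase_subset e z) (Finset.subset_insert e z))
  unfold diff ind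
  by_cases h1 : insert e z ∈ P <;> by_cases h2 : z.erase e ∈ P <;> simp_all

/-- constant for one level -/
def levK (r : ℕ) : ℝ := (1024 * (r:ℝ) ^ 2) * (768 * (r:ℝ) ^ 2 + 2)

lemma choose_m (r s : ℕ) (hr : 2 ≤ r) (hs : 1 ≤ s) :
    ∃ m : ℕ, 1 ≤ m ∧ m ^ r ≤ s ∧ s ≤ 2 ^ r * m ^ r := by
  refine ⟨Nat.findGreatest (fun m => m ^ r ≤ s) s, ?_, ?_, ?_⟩
  · exact Nat.le_findGreatest hs (by simpa using hs)
  · exact Nat.findGreatest_spec (m := 1) (P := fun m => m ^ r ≤ s) hs (by simpa using hs)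
  · set m := Nat.findGreatest (fun m => m ^ r ≤ s) s with hm
    have h1 : 1 ≤ m := Nat.le_findGreatest hs (by simpa using hs)
    rcases Nat.lt_or_ge m s with h | h
    · have := Nat.findGreatest_is_greatest (P := fun m => m ^ r ≤ s) (Nat.lt_succ_self m) h
      calc s ≤ (m + 1) ^ r := (not_le.1 this).le
        _ ≤ (2 * m) ^ r := Nat.pow_le_pow_left (by omega) r
        _ = _ := mul_pow ..
    · calc s ≤ m := h
        _ ≤ m ^ r := Nat.le_self_pow (by omega) m
        _ ≤ _ := Nat.le_mul_of_pos_left _ (Nat.two_pow_pos r)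

lemma exponent_le (hr : 2 ≤ r) {N Λ l : ℝ} {s m D : ℕ} (hΛ1 : 1 ≤ Λ) (hl1 : 1 ≤ l)
    (hN0 : 0 < N) (hlog : 64 * 1011 * (r:ℝ) * l ≤ N) (hD : D = 32 * r * m) (hm1' : (1:ℝ) ≤ m)
    (hm2 : (m:ℝ) ^ 2 ≤ s) (hsΛ : (1 + 4096 * (r:ℝ) ^ 2) * (s * Λ) ≤ m * N / 64) :
    ((s:ℝ) + (2 * D + 2) * D) * Λ + (31 * (D:ℝ) + 19) * l + -(m * N / 16) ≤ -(4 * l) := by
  have hr2 : (2:ℝ) ≤ r := by exact_mod_cast hr
  have hDr : (D:ℝ) = 32 * r * m := by rw [hD]; push_cast; ring
  have hD1 : (1:ℝ) ≤ D := by rw [hDr]; nlinarith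
  have hD2 : (D:ℝ) ^ 2 ≤ 1024 * (r:ℝ) ^ 2 * s := by
    rw [hDr, show (32 * (r:ℝ) * m) ^ 2 = 1024 * (r:ℝ) ^ 2 * (m:ℝ) ^ 2 by ring]
    gcongr
  have t1 : ((s:ℝ) + (2 * D + 2) * D) * Λ ≤ m * N / 64 := by
    refine le_trans ?_ hsΛ
    rw [← mul_assoc]
    refine mul_le_mul_of_nonneg_right ?_ (by linarith)
    calc (s:ℝ) + (2 * D + 2) * D ≤ s + 4 * (D:ℝ) ^ 2 := by nlinarith
      _ ≤ s + 4 * (1024 * (r:ℝ) ^ 2 * s) := by linarith
      _ = _ := by ring
  have t2 : (31 * (D:ℝ) + 19) * l ≤ m * N / 64 := by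
    calc (31 * (D:ℝ) + 19) * l ≤ (1011 * r * m) * l := by
          refine mul_le_mul_of_nonneg_right ?_ (by linarith)
          rw [hDr]; nlinarith
      _ = m * (64 * 1011 * r * l) / 64 := by ring
      _ ≤ _ := by gcongr
  have t3 : 4 * l ≤ m * N / 32 := by
    have : 128 * l ≤ 64 * 1011 * r * l :=
      mul_le_mul_of_nonneg_right (by linarith) (by linarith)
    have : N ≤ m * N := le_mul_of_one_le_left hN0.le hm1'
    linarith only [this, hlog, ‹128 * l ≤ 64 * 1011 * (r:ℝ) * l›]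
  linarith only [t1, t2, t3]

lemma exp_error_small (hr : 2 ≤ r) {A N : ℝ} {s m D : ℕ}
    (hA : 64 ≤ A) (hΛ1 : 1 ≤ Real.log A) (hN3 : 3 ≤ N)
    (hlog : 64 * 1011 * (r:ℝ) * Real.log N ≤ N) (hD : D = 32 * r * m) (hm1' : (1:ℝ) ≤ m)
    (hm2 : (m:ℝ) ^ 2 ≤ s) (hsN : (s:ℝ) ≤ N ^ 2) (_hs0 : (0:ℝ) ≤ s)
    (hsΛ : (1 + 4096 * (r:ℝ) ^ 2) * (s * Real.log A) ≤ m * N / 64) :
    A ^ s * (((s:ℝ) + 1) ^ D * Real.exp (-(m * N / 16)))
      / (1 / (N ^ 7 * (A ^ (2 * D + 2) * N ^ 27 + 1) ^ D) * (1 / N ^ 4) ^ 3) ≤ 1 / N ^ 4 := by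
  set M := A ^ (2 * D + 2) * N ^ 27 with hMdef
  set b := ((s:ℝ) + 1) ^ D * Real.exp (-(m * N / 16)) with hbdef
  set η := 1 / (N ^ 7 * (M + 1) ^ D) with hηdef
  set lam := 1 / N ^ 4 with hlamdef
  set Λ := Real.log A with hΛ
  set l := Real.log N with hl
  have hN0 : 0 < N := by linarith
  have hA0 : 0 < A := by linarith
  have hr2 : (2:ℝ) ≤ r := by exact_mod_cast hr
  have hl1 : 1 ≤ l := by
    rw [hl, ← Real.log_exp 1]
    exact Real.log_le_log (Real.exp_pos 1) (by linarith [Real.exp_one_lt_d9])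
  have eN : N = Real.exp l := (Real.exp_log hN0).symm
  have eA : A = Real.exp Λ := (Real.exp_log hA0).symm
  have hs1 : (s:ℝ) + 1 ≤ N ^ 3 := by nlinarith
  have hM1 : M + 1 ≤ A ^ (2 * D + 2) * N ^ 28 := by
    have : 1 ≤ M := one_le_mul_of_one_le_of_one_le (one_le_pow₀ (by linarith))
      (one_le_pow₀ (by linarith))
    calc M + 1 ≤ M * N := by nlinarith
      _ = _ := by rw [hMdef]; ring
  have e : A ^ s * b / (η * lam ^ 3)
      = A ^ s * ((s:ℝ) + 1) ^ D * (M + 1) ^ D * N ^ 19 * Real.exp (-(m * N / 16)) := by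
    simp only [hbdef, hηdef, hlamdef]; field_simp
  rw [e]
  refine le_trans (b := A ^ s * (N ^ 3) ^ D * (A ^ (2 * D + 2) * N ^ 28) ^ D * N ^ 19
    * Real.exp (-(m * N / 16))) (by gcongr) ?_
  have e' : A ^ s * (N ^ 3) ^ D * (A ^ (2 * D + 2) * N ^ 28) ^ D * N ^ 19
      = A ^ (s + (2 * D + 2) * D) * N ^ (31 * D + 19) := by ring
  rw [e']
  have e'' : 1 / N ^ 4 = Real.exp (-(4 * l)) := by
    rw [Real.exp_neg, one_div, eN, ← Real.exp_nat_mul]
    norm_num
  rw [hlamdef, e'', eA]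
  conv_lhs => rw [eN, ← Real.exp_nat_mul, ← Real.exp_nat_mul, ← Real.exp_add, ← Real.exp_add]
  rw [← eN]
  refine Real.exp_le_exp.2 ?_
  push_cast
  have := exponent_le hr hΛ1 hl1 hN0 hlog hD hm1' hm2 hsΛ
  linarith only [this]

lemma bet_good_le {p : ℝ} (h0 : 0 < p) (h1 : p < 1) {N : ℝ} (hN0 : 0 < N)
    (hN : Real.exp N = n) (hexp : 64 * (r:ℝ) ^ 2 * N ≤ Real.exp (N / 2))
    (F : Finset (Edge n r) → ℝ) (hF01 : ∀ z, F z = 0 ∨ F z = 1)
    (hF : ∀ (σ : Equiv.Perm (Fin n)) (x : Finset (Edge n r)),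
      F (x.map (edgeEquiv σ).toEmbedding) = F x)
    (s m D : ℕ) (hD : D = 32 * r * m) (hmN : (m:ℝ) ≤ N) :
    ∀ S ∈ goodSets (fun e : Edge n r => e.1) r m,
      bet p F s S ≤ ((s:ℝ) + 1) ^ D * Real.exp (-(m * N / 16)) := by
  intro S hS
  subst hD
  obtain ⟨hS1, hS2⟩ := (Finset.mem_filter.1 hS).2
  change m ≤ 8 * (spanV S).card at hS2
  set v := (spanV S).card with hv
  have hvle : v ≤ r * S.card := by
    refine le_trans Finset.card_biUnion_le (le_of_eq ?_)
    rw [Finset.sum_congr rfl (fun e _ => e.2), Finset.sum_const, smul_eq_mul, mul_comm]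
  have hvle' : (v:ℝ) ≤ 32 * (r:ℝ) ^ 2 * N := by
    have : (v:ℝ) ≤ (r:ℝ) * (32 * r * m) := by
      exact_mod_cast le_trans hvle (Nat.mul_le_mul_left r hS1)
    refine le_trans this ?_
    rw [show (r:ℝ) * (32 * r * m) = 32 * (r:ℝ) ^ 2 * m by ring]
    gcongr
  have hch := exp_le_choose (n := n) (v := v) hN (by linarith)
  have hbet := bet_le h0 h1 F hF01 hF s S
  rw [← hv] at hbet
  have hb00 : 0 ≤ bet p F s S :=
    Finset.sum_nonneg fun T _ => by split <;> positivity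
  have hle : bet p F s S * Real.exp (m * N / 16) ≤ ((s:ℝ) + 1) ^ (32 * r * m) := by
    calc bet p F s S * Real.exp (m * N / 16)
        ≤ bet p F s S * Real.exp (v * N / 2) := by
          refine mul_le_mul_of_nonneg_left (Real.exp_le_exp.2 ?_) hb00
          have : (m:ℝ) ≤ 8 * v := by exact_mod_cast hS2
          linarith [mul_le_mul_of_nonneg_right this hN0.le]
      _ ≤ bet p F s S * (n.choose v : ℝ) := mul_le_mul_of_nonneg_left hch hb00
      _ ≤ ((s:ℝ) + 1) ^ S.card := hbet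
      _ ≤ _ := pow_le_pow_right₀ (by linarith [(Nat.cast_nonneg s : (0:ℝ) ≤ s)]) hS1
  rw [Real.exp_neg, ← div_eq_mul_inv, le_div_iff₀ (Real.exp_pos _)]
  exact hle

lemma level_small (hr : 2 ≤ r) {p : ℝ} (h0 : 0 < p) (h1 : p < 1) {N : ℝ}
    (hN : Real.exp N = n) (hN3 : 3 ≤ N)
    (hlog : 64 * 1011 * (r:ℝ) * Real.log N ≤ N)
    (hexp : 64 * (r:ℝ) ^ 2 * N ≤ Real.exp (N / 2))
    (F : Finset (Edge n r) → ℝ) (hF01 : ∀ z, F z = 0 ∨ F z = 1)
    (hF : ∀ (σ : Equiv.Perm (Fin n)) (x : Finset (Edge n r)),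
      F (x.map (edgeEquiv σ).toEmbedding) = F x)
    (hI : ∑ e, infl p F e ≤ N ^ 2) (s : ℕ) (hs : 1 ≤ s) (hsN : (s:ℝ) ≤ N ^ 2)
    (hsk : (s:ℝ) ^ (r - 1)
      ≤ (N / (64 * (1 + 4096 * (r:ℝ) ^ 2) * 2 ^ r) / Real.log (hc p)) ^ r) :
    lev p F s ≤ levK r / N ^ 4 := by
  have hA := hc_ge h0 h1
  set Λ := Real.log (hc p) with hΛ
  have hΛ1 : 1 ≤ Λ := by
    rw [hΛ, ← Real.log_exp 1]
    exact Real.log_le_log (Real.exp_pos 1) (by linarith [Real.exp_one_lt_d9])
  set A := hc p with hAdef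
  have hA0 : 0 < A := by linarith
  have hN0 : 0 < N := by linarith
  set l := Real.log N with hl
  have hl1 : 1 ≤ l := by
    rw [hl, ← Real.log_exp 1]
    exact Real.log_le_log (Real.exp_pos 1) (by linarith [Real.exp_one_lt_d9])
  have eN : N = Real.exp l := (Real.exp_log hN0).symm
  have eA : A = Real.exp Λ := (Real.exp_log hA0).symm
  obtain ⟨m, hm1, hms, hsm⟩ := choose_m r s hr hs
  set D := 32 * r * m with hD
  have hr2 : (2:ℝ) ≤ r := by exact_mod_cast hr
  have hm1' : (1:ℝ) ≤ m := by exact_mod_cast hm1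
  have hms' : (m:ℝ) ^ r ≤ s := by exact_mod_cast hms
  have hsm' : (s:ℝ) ≤ 2 ^ r * (m:ℝ) ^ r := by exact_mod_cast hsm
  have hm2 : (m:ℝ) ^ 2 ≤ s := le_trans (pow_le_pow_right₀ hm1' hr) hms'
  have hmN : (m:ℝ) ≤ N := by
    refine (pow_le_pow_iff_left₀ (by positivity) hN0.le (by norm_num : (2:ℕ) ≠ 0)).1 ?_
    linarith
  set δ := 1 / (64 * (1 + 4096 * (r:ℝ) ^ 2) * 2 ^ r) with hδ
  have hmr : (m:ℝ) ^ (r - 1) * Λ ≤ δ * N := by
    have h2 : ((m:ℝ) ^ (r - 1)) ^ r ≤ (δ * N / Λ) ^ r := by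
      calc ((m:ℝ) ^ (r - 1)) ^ r = ((m:ℝ) ^ r) ^ (r - 1) := by
            rw [← pow_mul, ← pow_mul, mul_comm]
        _ ≤ (s:ℝ) ^ (r - 1) := pow_le_pow_left₀ (by positivity) hms' _
        _ ≤ _ := hsk
        _ = _ := by rw [hδ]; ring
    have h3 : (m:ℝ) ^ (r - 1) ≤ δ * N / Λ :=
      (pow_le_pow_iff_left₀ (by positivity) (by positivity) (by omega : r ≠ 0)).1 h2
    exact (le_div_iff₀ (by linarith)).1 h3
  have hsΛ : (1 + 4096 * (r:ℝ) ^ 2) * (s * Λ) ≤ m * N / 64 := by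
    have hk : (1 + 4096 * (r:ℝ) ^ 2) * 2 ^ r * δ = 1 / 64 := by rw [hδ]; field_simp
    have hpow : (m:ℝ) ^ r = (m:ℝ) ^ (r - 1) * m := by
      rw [← pow_succ]; congr 1; omega
    calc (1 + 4096 * (r:ℝ) ^ 2) * (s * Λ)
        ≤ (1 + 4096 * (r:ℝ) ^ 2) * (2 ^ r * (m:ℝ) ^ r * Λ) := by gcongr
      _ = (1 + 4096 * (r:ℝ) ^ 2) * 2 ^ r * m * ((m:ℝ) ^ (r - 1) * Λ) := by rw [hpow]; ring
      _ ≤ (1 + 4096 * (r:ℝ) ^ 2) * 2 ^ r * m * (δ * N) := by gcongr
      _ = ((1 + 4096 * (r:ℝ) ^ 2) * 2 ^ r * δ) * (m * N) := by ring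
      _ = _ := by rw [hk]; ring
  set θ := 1 / (A ^ (D + 1) * N ^ 9) with hθdef
  set M := A ^ (2 * D + 2) * N ^ 27 with hMdef
  set η := 1 / (N ^ 7 * (M + 1) ^ D) with hηdef
  set lam := 1 / N ^ 4 with hlamdef
  set b := ((s:ℝ) + 1) ^ D * Real.exp (-(m * N / 16)) with hbdef
  set I := ∑ e, infl p F e with hIdef
  have hI0 : 0 ≤ I := Finset.sum_nonneg fun e _ => infl_nonneg F e
  have hθ : 0 < θ := by positivity
  have hM : 0 < M := by positivity
  have hη : 0 < η := by positivity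
  have hlam : 0 < lam := by positivity
  have hb0 : 0 ≤ b := by positivity
  set es : Edge n r → Finset (Fin n) := fun e => e.1
  have hb : ∀ S ∈ goodSets es r m, bet p F s S ≤ b :=
    bet_good_le h0 h1 hN0 hN hexp F hF01 hF s m D hD hmN
  have hgood : ∀ T : Finset (Edge n r), T.card = s → 1 / (512 * (r:ℝ) ^ 2)
      ≤ E ((m : ℝ) / s) (fun L => if T ∩ L ∈ goodSets es r m then (1:ℝ) else 0) := by
    intro T hT
    have := spanning es (fun a b h => Subtype.ext h) hr (fun e => e.2) T hm1 (by rw [hT]; exact hms)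
    rwa [hT] at this
  have hρ1 : (m:ℝ) / s ≤ 1 := by
    rw [div_le_one (by exact_mod_cast hs)]
    exact le_trans (le_self_pow₀ hm1' (by omega)) hms'
  have key := level_bound h0 h1 (ρ := (m:ℝ) / s) (by positivity) hρ1 F hF01 s D (goodSets es r m)
    (fun S hS => ((Finset.mem_filter.1 hS).2).1) hb0 hb hθ hM hη hlam
    (by positivity : (0:ℝ) < 1 / (512 * (r:ℝ) ^ 2)) hgood
  rw [← hIdef, ← hAdef] at key
  have hX : (A ^ (D + 1) * θ + 1 / (θ ^ 2 * M)) * I + η * (M + 1) ^ D ≤ 3 / N ^ 4 := by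
    have e1 : A ^ (D + 1) * θ = 1 / N ^ 9 := by rw [hθdef]; field_simp
    have e2 : 1 / (θ ^ 2 * M) = 1 / N ^ 9 := by
      rw [hθdef, hMdef, show 2 * D + 2 = (D + 1) * 2 by ring, pow_mul]; field_simp
    have e3 : η * (M + 1) ^ D = 1 / N ^ 7 := by rw [hηdef]; field_simp
    rw [e1, e2, e3]
    have e4 : 1 / N ^ 7 ≤ 1 / N ^ 4 :=
      one_div_le_one_div_of_le (by positivity) (pow_le_pow_right₀ (by linarith) (by norm_num))
    calc (1 / N ^ 9 + 1 / N ^ 9) * I + 1 / N ^ 7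
        ≤ (1 / N ^ 9 + 1 / N ^ 9) * N ^ 2 + 1 / N ^ 7 := by gcongr
      _ = 3 * (1 / N ^ 7) := by field_simp; ring
      _ ≤ 3 * (1 / N ^ 4) := by gcongr
      _ = _ := by ring
  have hY : A ^ s * b / (η * lam ^ 3) ≤ 1 / N ^ 4 :=
    exp_error_small hr (D := D) hA hΛ1 hN3 hlog (hD ▸ rfl) hm1' hm2 hsN (Nat.cast_nonneg s) hsΛ
  have hN4 : 0 < N ^ 4 := by positivity
  have hr0 : (0:ℝ) < r := by linarith
  calc lev p F s
      = (1 / (512 * (r:ℝ) ^ 2) / 2 * lev p F s) * (1024 * (r:ℝ) ^ 2) := by field_simp; ring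
    _ ≤ ((3 / N ^ 4) / (2 * (1 / (512 * (r:ℝ) ^ 2))) + 1 / N ^ 4 + 1 / N ^ 4)
          * (1024 * (r:ℝ) ^ 2) := by
        refine mul_le_mul_of_nonneg_right (le_trans key ?_) (by positivity)
        exact add_le_add (add_le_add (div_le_div_of_nonneg_right hX (by positivity)) le_rfl) hY
    _ = _ := by rw [levK]; field_simp; ring

lemma var_split {p : ℝ} (h0 : 0 < p) (h1 : p < 1) (P : Set (Finset (Edge n r))) {k : ℝ}
    (hk0 : 0 < k) :
    prob p P - prob p P ^ 2
      ≤ (∑ s ∈ Finset.Icc 1 ⌊k⌋₊, lev p (ind P) s) + (∑ e, infl p (ind P) e) / k := by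
  set μ := prob p P with hμ
  set F := ind P with hF
  set I := ∑ e, infl p F e with hI
  have hvar : μ - μ ^ 2
      = ∑ T : Finset (Edge n r), if T = ∅ then 0 else coef p F T ^ 2 := by
    have hpar := parseval h0 h1 F
    have hE : E p (fun x => F x ^ 2) = μ := by
      rw [hμ, prob_eq]
      exact E_congr fun z => by rcases ind_01 P z with h | h <;> simp [hF, h]
    rw [hE, ← Finset.add_sum_erase univ _ (Finset.mem_univ ∅), coef_empty, hF, ← prob_eq,
      ← hμ] at hpar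
    rw [← Finset.add_sum_erase univ _ (Finset.mem_univ ∅), if_pos rfl, zero_add]
    calc μ - μ ^ 2 = ∑ T ∈ univ.erase ∅, coef p (ind P) T ^ 2 := by linarith
      _ = _ := Finset.sum_congr rfl fun T hT => by
          rw [if_neg (Finset.ne_of_mem_erase hT)]

  rw [hvar, hI, sum_infl, Finset.sum_div]
  unfold lev
  rw [Finset.sum_comm (s := Finset.Icc 1 ⌊k⌋₊), ← Finset.sum_add_distrib]
  refine Finset.sum_le_sum fun T _ => ?_
  rw [Finset.sum_ite_eq]
  have hn : 0 ≤ (T.card : ℝ) * coef p F T ^ 2 / k := by positivity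
  have hc2 := sq_nonneg (coef p F T)
  by_cases hT : T = ∅
  · rw [if_pos hT]
    split <;> linarith
  · rw [if_neg hT]
    by_cases hin : T.card ∈ Finset.Icc 1 ⌊k⌋₊
    · rw [if_pos hin]; linarith
    · rw [if_neg hin, zero_add, le_div_iff₀ hk0, mul_comm]
      refine mul_le_mul_of_nonneg_right ?_ hc2
      simp only [Finset.mem_Icc, not_and, not_le] at hin
      exact (Nat.lt_of_floor_lt (hin (Finset.one_le_card.2
        (Finset.nonempty_iff_ne_empty.2 hT)))).le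

lemma deriv_bound (hr : 2 ≤ r) {ε : ℝ} (hε : 0 < ε) (hε2 : ε < 1/2) {N : ℝ}
    (hN : Real.exp N = n) (hN3 : 3 ≤ N)
    (hlog : 64 * 1011 * (r:ℝ) * Real.log N ≤ N)
    (hexp : 64 * (r:ℝ) ^ 2 * N ≤ Real.exp (N / 2))
    (hK : levK r / N ^ 2 ≤ ε / 8)
    (P : Set (Finset (Edge n r))) (hmon : IsIncreasing P) (hinv : IsInvariant P)
    {p : ℝ} (h0 : 0 < p) (h1 : p < 1) (hlo : ε ≤ prob p P) (hhi : prob p P ≤ 1 - ε) :
    ε * (1 / (64 * (1 + 4096 * (r:ℝ) ^ 2) * 2 ^ r)) ^ 2 / 256 * N ^ ((r:ℝ) / ((r:ℝ) - 1))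
      ≤ ∑ e, E p (diff e (ind P)) := by
  set F := ind P with hF
  set μ' := ∑ e, E p (diff e F) with hμ'
  set I := ∑ e, infl p F e with hI
  set δ := 1 / (64 * (1 + 4096 * (r:ℝ) ^ 2) * 2 ^ r) with hδ
  set a := (r:ℝ) / ((r:ℝ) - 1) with ha
  have hpq : 0 < p * (1 - p) := mul_pos h0 (by linarith)
  have hpq4 : p * (1 - p) ≤ 1 / 4 := by nlinarith [sq_nonneg (p - 1/2)]
  have hIμ : I = p * (1 - p) * μ' := by
    rw [hI, hμ', Finset.mul_sum]
    refine Finset.sum_congr rfl fun e _ => ?_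
    rw [infl_eq h0 h1 e F, E_congr fun z => (diff_01 P hmon e z).1]
  have hI0 : 0 ≤ I := Finset.sum_nonneg fun e _ => infl_nonneg F e
  have hμ0 : 0 ≤ μ' :=
    Finset.sum_nonneg fun e _ => E_nonneg h0.le h1.le fun z => (diff_01 P hmon e z).2
  have hr2 : (2:ℝ) ≤ r := by exact_mod_cast hr
  have ha1 : 1 ≤ a := by rw [ha, one_le_div (by linarith)]; linarith
  have ha2 : a ≤ 2 := by rw [ha, div_le_iff₀ (by linarith)]; linarith
  have hN0 : 0 < N := by linarith
  have hNa : N ^ a ≤ N ^ 2 := by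
    rw [← Real.rpow_natCast N 2]
    exact Real.rpow_le_rpow_of_exponent_le (by linarith) (by exact_mod_cast ha2)
  have hδ0 : 0 < δ := by positivity
  have hδ1 : δ ≤ 1 := by
    rw [hδ, div_le_one (by positivity)]
    have : (1:ℝ) ≤ 2 ^ r := one_le_pow₀ (by norm_num)
    nlinarith
  have hNa0 : 0 ≤ N ^ a := Real.rpow_nonneg hN0.le a
  have hεδ : ε * δ ^ 2 / 256 ≤ 1 := by
    have : δ ^ 2 ≤ 1 := pow_le_one₀ hδ0.le hδ1
    nlinarith
  rcases le_or_gt (N ^ 2) I with hbig | hsmall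
  · calc ε * δ ^ 2 / 256 * N ^ a ≤ 1 * N ^ a := mul_le_mul_of_nonneg_right hεδ hNa0
      _ = N ^ a := one_mul _
      _ ≤ N ^ 2 := hNa
      _ ≤ I := hbig
      _ ≤ 1 * μ' := by rw [hIμ]; exact mul_le_mul_of_nonneg_right (by linarith) hμ0
      _ = μ' := one_mul _
  · set Λ := Real.log (hc p) with hΛ
    have hA := hc_ge h0 h1
    have hΛ1 : 1 ≤ Λ := by
      rw [hΛ, ← Real.log_exp 1]
      exact Real.log_le_log (Real.exp_pos 1) (by linarith [Real.exp_one_lt_d9])
    have hΛ2 : Λ ^ 2 * (p * (1 - p)) ≤ 64 := by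
      have h2 : Λ ≤ 2 * Real.sqrt (hc p) := by
        have := Real.log_le_sub_one_of_pos (Real.sqrt_pos.2 (by linarith : 0 < hc p))
        rw [Real.log_sqrt (by linarith)] at this
        linarith [Real.sqrt_nonneg (hc p)]
      calc Λ ^ 2 * (p * (1 - p)) ≤ (2 * Real.sqrt (hc p)) ^ 2 * (p * (1 - p)) := by gcongr
        _ = 4 * hc p * (p * (1 - p)) := by rw [mul_pow, Real.sq_sqrt (by linarith)]; ring
        _ = 64 := by
            unfold hc
            rw [mul_assoc, div_mul_cancel₀ _ hpq.ne']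
            norm_num
    set x := δ * N / Λ with hx
    have hx0 : 0 < x := by positivity
    set k := x ^ a with hk
    have hk0 : 0 < k := Real.rpow_pos_of_pos hx0 a
    have hxN : x ≤ N := by
      rw [hx, div_le_iff₀ (by linarith)]
      calc δ * N ≤ 1 * N := by gcongr
        _ ≤ N * Λ := by nlinarith
    have hkN : k ≤ N ^ 2 := le_trans (Real.rpow_le_rpow hx0.le hxN (by linarith)) hNa
    have hklow : δ ^ 2 * N ^ a / Λ ^ 2 ≤ k := by
      rw [hk, hx, Real.div_rpow (by positivity) (by linarith), Real.mul_rpow hδ0.le hN0.le]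
      refine div_le_div₀ (by positivity) (mul_le_mul_of_nonneg_right ?_ hNa0) (by positivity) ?_
      · rw [← Real.rpow_natCast δ 2]
        exact Real.rpow_le_rpow_of_exponent_ge hδ0 hδ1 (by exact_mod_cast ha2)
      · rw [← Real.rpow_natCast Λ 2]
        exact Real.rpow_le_rpow_of_exponent_le hΛ1 (by exact_mod_cast ha2)
    have hlev : ∀ s ∈ Finset.Icc 1 ⌊k⌋₊, lev p F s ≤ levK r / N ^ 4 := by
      intro s hs
      obtain ⟨hs1, hs2⟩ := Finset.mem_Icc.1 hs
      have hsk : (s:ℝ) ≤ k := le_trans (by exact_mod_cast hs2) (Nat.floor_le hk0.le)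
      refine level_small hr h0 h1 hN hN3 hlog hexp F (ind_01 P) (ind_invariant P hinv)
        hsmall.le s hs1 (le_trans hsk hkN) ?_
      calc (s:ℝ) ^ (r - 1) ≤ k ^ (r - 1) := pow_le_pow_left₀ (Nat.cast_nonneg s) hsk _
        _ = x ^ (a * ((r - 1 : ℕ) : ℝ)) := by
            rw [hk, Real.rpow_mul hx0.le, Real.rpow_natCast]
        _ = x ^ r := by
            rw [← Real.rpow_natCast x r]; congr 1
            rw [Nat.cast_sub (by omega : 1 ≤ r), ha, Nat.cast_one]
            field_simp [show (r:ℝ) - 1 ≠ 0 by linarith]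
        _ = _ := by rw [hx, hδ]; ring
    set μ := prob p P with hμ
    have hsplit : μ - μ ^ 2 ≤ (∑ s ∈ Finset.Icc 1 ⌊k⌋₊, lev p F s) + I / k :=
      var_split h0 h1 P hk0
    have hsum : ∑ s ∈ Finset.Icc 1 ⌊k⌋₊, lev p F s ≤ ε / 8 := by
      refine le_trans (Finset.sum_le_sum hlev) ?_
      rw [Finset.sum_const, Nat.card_Icc, Nat.add_sub_cancel, nsmul_eq_mul]
      refine le_trans ?_ hK
      calc (⌊k⌋₊ : ℝ) * (levK r / N ^ 4) ≤ N ^ 2 * (levK r / N ^ 4) :=
            mul_le_mul_of_nonneg_right (le_trans (Nat.floor_le hk0.le) hkN)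
              (by unfold levK; positivity)
        _ = _ := by field_simp
    have hvar2 : ε / 2 ≤ μ - μ ^ 2 := by
      have := mul_nonneg (sub_nonneg.2 hlo) (sub_nonneg.2 hhi)
      have := mul_nonneg hε.le (sub_nonneg.2 hε2.le)
      linarith
    have hIk : ε / 4 * k ≤ I := by
      have : ε / 4 ≤ I / k := by linarith
      exact (le_div_iff₀ hk0).1 this
    have h4 : ε / 4 * (δ ^ 2 * N ^ a / Λ ^ 2) ≤ p * (1 - p) * μ' := by
      rw [← hIμ]
      exact le_trans (mul_le_mul_of_nonneg_left hklow (by linarith)) hIk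
    have hΛ0 : 0 < Λ := by linarith
    have h5 : ε / 4 * (δ ^ 2 * N ^ a) ≤ Λ ^ 2 * (p * (1 - p)) * μ' := by
      have := mul_le_mul_of_nonneg_left h4 (sq_nonneg Λ)
      calc ε / 4 * (δ ^ 2 * N ^ a) = Λ ^ 2 * (ε / 4 * (δ ^ 2 * N ^ a / Λ ^ 2)) := by
            conv_rhs => rw [mul_left_comm, mul_div_cancel₀ _ (pow_ne_zero 2 hΛ0.ne')]
        _ ≤ Λ ^ 2 * (p * (1 - p) * μ') := this
        _ = _ := by ring
    linarith [mul_le_mul_of_nonneg_right hΛ2 hμ0]

lemma prob_zero_one (P : Set (Finset (Edge n r))) (hmon : IsIncreasing P)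
    (hne : P.Nonempty) (huniv : P ≠ Set.univ) : prob 0 P = 0 ∧ prob 1 P = 1 := by
  have h0 : (∅ : Finset (Edge n r)) ∉ P := fun h =>
    huniv (Set.eq_univ_of_forall fun x => hmon ∅ x (Finset.empty_subset x) h)
  have h1 : (Finset.univ : Finset (Edge n r)) ∈ P := by
    obtain ⟨x, hx⟩ := hne
    exact hmon x _ (Finset.subset_univ x) hx
  unfold prob
  constructor
  · refine Finset.sum_eq_zero fun x _ => ?_
    by_cases h : x ∈ P
    · rw [Set.indicator_of_mem h, zero_pow]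
      · simp
      · intro hc
        exact h0 (Finset.card_eq_zero.1 hc ▸ h)
    · simp [h]
  · rw [Finset.sum_eq_single Finset.univ]
    · simp [h1]
    · intro x _ hx
      by_cases h : x ∈ P
      · rw [Set.indicator_of_mem h]
        have : x.card < Fintype.card (Edge n r) := by
          refine lt_of_le_of_ne x.card_le_univ fun hc => hx (Finset.card_eq_iff_eq_univ x |>.1 hc)
        rw [sub_self, zero_pow (by omega), mul_zero]
      · simp [h]
    · simp

lemma continuous_prob (P : Set (Finset (Edge n r))) : Continuous (fun p => prob p P) := by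
  unfold prob
  refine continuous_finsetSum _ fun x _ => ?_
  by_cases h : x ∈ P
  · simp only [Set.indicator_of_mem h]; fun_prop
  · simp only [Set.indicator_of_notMem h]; exact continuous_const

lemma hasDerivAt_prob (P : Set (Finset (Edge n r))) (p : ℝ) :
    HasDerivAt (fun q => prob q P) (∑ e, E p (diff e (ind P))) p := by
  simp only [prob_eq]
  exact hasDerivAt_E p (ind P)

lemma prob_monotone (P : Set (Finset (Edge n r))) (hmon : IsIncreasing P) :
    MonotoneOn (fun p => prob p P) (Set.Icc 0 1) := by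
  refine monotoneOn_of_hasDerivWithinAt_nonneg (f' := fun p => ∑ e, E p (diff e (ind P)))
    (convex_Icc 0 1) (continuous_prob P).continuousOn
    (fun x _ => (hasDerivAt_prob P x).hasDerivWithinAt) fun x hx => ?_
  rw [interior_Icc] at hx
  exact Finset.sum_nonneg fun e _ =>
    E_nonneg hx.1.le hx.2.le fun z => (diff_01 P hmon e z).2

lemma crit_spec (P : Set (Finset (Edge n r))) (hmon : IsIncreasing P)
    (hne : P.Nonempty) (huniv : P ≠ Set.univ) {a : ℝ} (ha0 : 0 < a) (ha1 : a < 1) :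
    crit a P ∈ Set.Ioo (0:ℝ) 1 ∧ prob (crit a P) P = a := by
  obtain ⟨hp0, hp1⟩ := prob_zero_one P hmon hne huniv
  set S := {p : ℝ | p ∈ Set.Icc 0 1 ∧ a ≤ prob p P} with hS
  have hne' : S.Nonempty := ⟨1, ⟨by simp, by rw [hp1]; exact ha1.le⟩⟩
  have hbb : BddBelow S := ⟨0, fun p hp => hp.1.1⟩
  have hcl : IsClosed S :=
    IsClosed.inter isClosed_Icc (isClosed_le continuous_const (continuous_prob P))
  obtain ⟨hmem, hge⟩ : crit a P ∈ S := hcl.csInf_mem hne' hbb
  obtain ⟨c, hc, hca⟩ : a ∈ (fun p => prob p P) '' Set.Icc (0:ℝ) 1 :=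
    intermediate_value_Icc zero_le_one (continuous_prob P).continuousOn
      ⟨by rw [hp0]; exact ha0.le, by rw [hp1]; exact ha1.le⟩
  have hle : crit a P ≤ c := csInf_le hbb ⟨hc, hca.ge⟩
  have heq : prob (crit a P) P = a :=
    le_antisymm (le_trans (prob_monotone P hmon hmem hc hle) hca.le) hge
  refine ⟨⟨lt_of_le_of_ne hmem.1 fun h => ?_, lt_of_le_of_ne hmem.2 fun h => ?_⟩, heq⟩
  · rw [← h, hp0] at heq; linarith
  · rw [h, hp1] at heq; linarith

theorem width_bound (r : ℕ) (hr : 2 ≤ r) (ε : ℝ) (hε : 0 < ε) (hε2 : ε < 1/2) :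
    ∃ C : ℝ, ∀ n : ℕ, r ≤ n → ∀ P : Set (Finset (Edge n r)),
      IsIncreasing P → IsInvariant P → P.Nonempty → P ≠ Set.univ →
      width ε P ≤ C * Real.log n ^ (-((r:ℝ) / ((r:ℝ) - 1))) := by
  set a := (r:ℝ) / ((r:ℝ) - 1) with ha
  have hr2 : (2:ℝ) ≤ r := by exact_mod_cast hr
  have ha0 : 0 ≤ a := div_nonneg (by linarith) (by linarith)
  have hev : ∀ᶠ N : ℝ in Filter.atTop, 3 ≤ N ∧ 64 * 1011 * (r:ℝ) * Real.log N ≤ N ∧
      64 * (r:ℝ) ^ 2 * N ≤ Real.exp (N / 2) ∧ levK r / N ^ 2 ≤ ε / 8 := by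
    refine (Filter.eventually_ge_atTop 3).and (Filter.Eventually.and ?_ (Filter.Eventually.and ?_ ?_))
    · have h := Real.isLittleO_log_id_atTop.bound
        (show (0:ℝ) < 1 / (64 * 1011 * (r:ℝ)) by positivity)
      filter_upwards [h, Filter.eventually_ge_atTop (1:ℝ)] with N hN hN1
      rw [Real.norm_eq_abs, Real.norm_eq_abs, abs_of_nonneg (Real.log_nonneg hN1), id_eq,
        abs_of_nonneg (by linarith : (0:ℝ) ≤ N), one_div_mul_eq_div,
        le_div_iff₀ (by positivity)] at hN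
      linarith
    · filter_upwards [Filter.eventually_ge_atTop (512 * (r:ℝ) ^ 2)] with N hN
      have hN0 : 0 ≤ N := le_trans (by positivity) hN
      have := Real.quadratic_le_exp_of_nonneg (by linarith : 0 ≤ N / 2)
      nlinarith
    · filter_upwards [Filter.eventually_ge_atTop 1,
        Filter.eventually_ge_atTop (8 * levK r / ε)] with N hN1 hN
      rw [div_le_iff₀ hε] at hN
      rw [div_le_iff₀ (by positivity)]
      have : N ≤ N ^ 2 := by nlinarith
      nlinarith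
  obtain ⟨N0, hN0⟩ := Filter.eventually_atTop.1 hev
  set δ := 1 / (64 * (1 + 4096 * (r:ℝ) ^ 2) * 2 ^ r) with hδ
  set c := ε * δ ^ 2 / 256 with hc
  have hc0 : 0 < c := by positivity
  refine ⟨max ((max N0 1) ^ a) (1 / c), fun n hn P hmon hinv hne huniv => ?_⟩
  have hn2 : (2:ℝ) ≤ n := by exact_mod_cast le_trans hr hn
  have hL : 0 < Real.log n := Real.log_pos (by linarith)
  rw [Real.rpow_neg hL.le, ← div_eq_mul_inv, le_div_iff₀ (Real.rpow_pos_of_pos hL a)]
  obtain ⟨hl, hlv⟩ := crit_spec P hmon hne huniv hε (by linarith : ε < 1)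
  obtain ⟨hh, hhv⟩ := crit_spec P hmon hne huniv (by linarith : 0 < 1 - ε) (by linarith : 1 - ε < 1)
  have hlh : crit ε P < crit (1 - ε) P := by
    by_contra hcon
    push Not at hcon
    have h := prob_monotone P hmon (Set.Ioo_subset_Icc_self hh) (Set.Ioo_subset_Icc_self hl) hcon
    simp only [hlv, hhv] at h
    linarith
  have hw1 : width ε P ≤ 1 := by unfold width; linarith [hl.1, hh.2]
  rcases lt_or_ge (Real.log n) N0 with hsmall | hlarge
  · refine le_trans (le_trans (mul_le_of_le_one_left (Real.rpow_nonneg hL.le a) hw1) ?_)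
      (le_max_left _ _)
    exact Real.rpow_le_rpow hL.le (le_trans hsmall.le (le_max_left _ _)) ha0
  · obtain ⟨g3, glog, gexp, gK⟩ := hN0 _ hlarge
    obtain ⟨x, hx, hxs⟩ := exists_hasDerivAt_eq_slope (fun p => prob p P)
      (fun p => ∑ e, E p (diff e (ind P))) hlh (continuous_prob P).continuousOn
      (fun p _ => hasDerivAt_prob P p)
    have hx01 : x ∈ Set.Icc (0:ℝ) 1 :=
      ⟨(lt_trans hl.1 hx.1).le, (lt_trans hx.2 hh.2).le⟩
    have hlo : ε ≤ prob x P :=
      hlv ▸ prob_monotone P hmon (Set.Ioo_subset_Icc_self hl) hx01 hx.1.le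
    have hhi : prob x P ≤ 1 - ε :=
      hhv ▸ prob_monotone P hmon hx01 (Set.Ioo_subset_Icc_self hh) hx.2.le
    have hb := deriv_bound hr hε hε2 (Real.exp_log (by linarith : (0:ℝ) < n)) g3 glog gexp gK P
      hmon hinv (lt_trans hl.1 hx.1) (lt_trans hx.2 hh.2) hlo hhi
    simp only [hlv, hhv] at hxs
    rw [hxs, ← hδ, ← hc, ← ha, le_div_iff₀ (by linarith)] at hb
    refine le_trans ?_ (le_max_right _ _)
    rw [le_div_iff₀ hc0]
    unfold width
    calc (crit (1 - ε) P - crit ε P) * Real.log n ^ a * c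
        = c * Real.log n ^ a * (crit (1 - ε) P - crit ε P) := by ring
      _ ≤ 1 - ε - ε := hb
      _ ≤ 1 := by linarith

end Vale.Agent.P063
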