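import Vale.Agent.P063.Cube

/-!
A random sparse sample of a set of `s` edges of size `r` spans about `s^(1/r)` vertices.
-/

noncomputable section

open Finset

set_option linter.unusedSectionVars false

namespace Vale.Agent.P063

variable {ι V : Type*} [Fintype ι] [DecidableEq ι] [Fintype V] [DecidableEq V] {ρ : ℝ}

lemma E_disjoint (Q : Finset ι) :
    E ρ (fun L : Finset ι => if Disjoint Q L then (1 : ℝ) else 0) = (1 - ρ) ^ Q.card := by
  let g : ι → Bool → ℝ := fun e b => if e ∈ Q then (if b then 0 else 1) else 1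
  have key : ∀ L : Finset ι, (if Disjoint Q L then (1 : ℝ) else 0)
      = ∏ e, g e (decide (e ∈ L)) := by
    intro L
    by_cases h : Disjoint Q L
    · rw [if_pos h]
      refine (Finset.prod_eq_one fun e _ => ?_).symm
      by_cases he : e ∈ Q
      · simp [g, he, Finset.disjoint_left.1 h he]
      · simp [g, he]
    · rw [if_neg h]
      obtain ⟨e, he, heL⟩ := Finset.not_disjoint_iff.1 h
      exact (Finset.prod_eq_zero (Finset.mem_univ e) (by simp [g, he, heL])).symm
  rw [E_congr key, E_prod]
  have : ∀ e, ρ * g e true + (1 - ρ) * g e false = if e ∈ Q then 1 - ρ else 1 := by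
    intro e; by_cases he : e ∈ Q <;> simp [g, he]
  simp [this, Finset.prod_ite_mem]

lemma E_subset (Q : Finset ι) :
    E ρ (fun L : Finset ι => if Q ⊆ L then (1 : ℝ) else 0) = ρ ^ Q.card := by
  let g : ι → Bool → ℝ := fun e b => if e ∈ Q then (if b then 1 else 0) else 1
  have key : ∀ L : Finset ι, (if Q ⊆ L then (1 : ℝ) else 0)
      = ∏ e, g e (decide (e ∈ L)) := by
    intro L
    by_cases h : Q ⊆ L
    · rw [if_pos h]
      refine (Finset.prod_eq_one fun e _ => ?_).symm
      by_cases he : e ∈ Q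
      · simp [g, he, h he]
      · simp [g, he]
    · rw [if_neg h]
      obtain ⟨e, he, heL⟩ := Finset.not_subset.1 h
      exact (Finset.prod_eq_zero (Finset.mem_univ e) (by simp [g, he, heL])).symm
  rw [E_congr key, E_prod]
  have : ∀ e, ρ * g e true + (1 - ρ) * g e false = if e ∈ Q then ρ else 1 := by
    intro e; by_cases he : e ∈ Q <;> simp [g, he]
  simp [this, Finset.prod_ite_mem]

lemma pow_mul_le_one {x : ℝ} (h0 : 0 ≤ x) (h1 : x ≤ 1) (d : ℕ) :
    (1 - x) ^ d * (1 + d * x) ≤ 1 := by
  induction d with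
  | zero => simp
  | succ d ih =>
    have h : (1 - x) * (1 + (d + 1) * x) ≤ 1 + d * x := by
      nlinarith [mul_nonneg (Nat.cast_nonneg (α := ℝ) d) (mul_self_nonneg x), mul_self_nonneg x]
    calc (1 - x) ^ (d + 1) * (1 + ((d + 1 : ℕ) : ℝ) * x)
        = (1 - x) ^ d * ((1 - x) * (1 + (d + 1) * x)) := by push_cast; ring
      _ ≤ (1 - x) ^ d * (1 + d * x) := mul_le_mul_of_nonneg_left h (pow_nonneg (by linarith) d)
      _ ≤ 1 := ih

lemma one_sub_pow_ge {x : ℝ} (h0 : 0 ≤ x) (h1 : x ≤ 1) (d : ℕ) :
    (d : ℝ) * x / (1 + d * x) ≤ 1 - (1 - x) ^ d := by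
  rw [div_le_iff₀ (by positivity)]
  linarith [pow_mul_le_one h0 h1 d, sub_mul (1:ℝ) ((1 - x) ^ d) (1 + d * x)]

/-- the sampled sets that are small and span many vertices -/
def goodSets (es : ι → Finset V) (r m : ℕ) : Finset (Finset ι) :=
  univ.filter (fun S => S.card ≤ 32 * r * m ∧ m ≤ 8 * (S.biUnion es).card)

lemma spanning (es : ι → Finset V) (hinj : Function.Injective es) {r : ℕ} (hr : 2 ≤ r)
    (hcard : ∀ e, (es e).card = r) (T : Finset ι) {m : ℕ} (hm : 1 ≤ m) (hms : m ^ r ≤ T.card) :
    1 / (512 * (r : ℝ) ^ 2)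
      ≤ E ((m : ℝ) / T.card) (fun L => if T ∩ L ∈ goodSets es r m then (1:ℝ) else 0) := by
  set s := T.card with hs
  have hsm : m ≤ s := le_trans (Nat.le_self_pow (by omega) m) hms
  have hspos : (0:ℝ) < s := by exact_mod_cast (show 0 < s by omega)
  set ρ := (m : ℝ) / s with hρ
  have hρ0 : 0 ≤ ρ := by positivity
  have hρ1 : ρ ≤ 1 := by rw [hρ, div_le_one hspos]; exact_mod_cast hsm
  have hρs : ρ * s = m := div_mul_cancel₀ _ hspos.ne'
  have hm1 : (1:ℝ) ≤ m := by exact_mod_cast hm
  have hr2 : (2:ℝ) ≤ r := by exact_mod_cast hr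
  set Z : Finset ι → ℝ := fun L => ((T ∩ L).card : ℝ) with hZ
  set vc : Finset ι → ℝ := fun L => (((T ∩ L).biUnion es).card : ℝ) with hvc
  set D : ℝ := 32 * r * m with hDdef
  have hD : 0 < D := by positivity
  have hvZ : ∀ L, vc L ≤ r * Z L := by
    intro L
    simp only [hvc, hZ]
    calc (((T ∩ L).biUnion es).card : ℝ) ≤ ((∑ e ∈ T ∩ L, (es e).card : ℕ) : ℝ) := by
          exact_mod_cast Finset.card_biUnion_le
      _ = _ := by simp [hcard, mul_comm]
  have hpt : ∀ L, vc L ≤ (m : ℝ) / 8 + r * D * (if T ∩ L ∈ goodSets es r m then (1:ℝ) else 0)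
      + r / D * Z L ^ 2 := by
    intro L
    have hn : 0 ≤ (r:ℝ) / D * Z L ^ 2 := by positivity
    by_cases hg : T ∩ L ∈ goodSets es r m
    · rw [if_pos hg, mul_one]
      have hg1 : Z L ≤ D := by
        simp only [hZ, hDdef]
        exact_mod_cast ((Finset.mem_filter.1 hg).2).1
      have := le_trans (hvZ L) (mul_le_mul_of_nonneg_left hg1 (by positivity))
      linarith
    · rw [if_neg hg, mul_zero]
      simp only [goodSets, Finset.mem_filter, Finset.mem_univ, true_and, not_and_or, not_le] at hg
      rcases hg with hg | hg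
      · have hg1 : D ≤ Z L := by
          simp only [hZ, hDdef]
          exact_mod_cast hg.le
        have : (r:ℝ) * Z L ≤ r / D * Z L ^ 2 := by
          rw [div_mul_eq_mul_div, le_div_iff₀ hD]
          calc (r:ℝ) * Z L * D ≤ r * Z L * Z L :=
                mul_le_mul_of_nonneg_left hg1 (by positivity)
            _ = _ := by ring
        linarith [hvZ L]
      · have : (8:ℝ) * vc L ≤ m := by
          simp only [hvc]
          exact_mod_cast hg.le
        linarith
  have hEpt := E_mono hρ0 hρ1 hpt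
  simp only [E_add, E_const_mul, E_const] at hEpt
  have hZ2 : E ρ (fun L => Z L ^ 2) ≤ 2 * (m:ℝ) ^ 2 := by
    have hsum : ∀ L, Z L ^ 2
        = ∑ e ∈ T, ∑ e' ∈ T, (if ({e, e'} : Finset ι) ⊆ L then (1:ℝ) else 0) := by
      intro L
      have h1 : Z L = ∑ e ∈ T, (if e ∈ L then (1:ℝ) else 0) := by
        simp [hZ, Finset.sum_boole, Finset.filter_mem_eq_inter]
      rw [h1, pow_two, Finset.sum_mul_sum]
      refine Finset.sum_congr rfl fun e _ => Finset.sum_congr rfl fun e' _ => ?_
      by_cases h : e ∈ L <;> by_cases h' : e' ∈ L <;> simp [h, h', Finset.insert_subset_iff]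
    rw [E_congr hsum, E_sum]
    calc ∑ e ∈ T, E ρ (fun L => ∑ e' ∈ T, (if ({e, e'} : Finset ι) ⊆ L then (1:ℝ) else 0))
        ≤ ∑ e ∈ T, ((ρ : ℝ) + s * ρ ^ 2) := by
          refine Finset.sum_le_sum fun e he => ?_
          rw [E_sum]
          simp only [E_subset]
          calc ∑ e' ∈ T, ρ ^ ({e, e'} : Finset ι).card
              ≤ ∑ e' ∈ T, ((if e = e' then ρ else 0) + ρ ^ 2) := by
                refine Finset.sum_le_sum fun e' _ => ?_
                by_cases h : e = e'
                · subst h; simp [sq_nonneg]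
                · simp [h]
            _ = _ := by simp [Finset.sum_add_distrib, he, hs]
      _ = (ρ * s) + (ρ * s) ^ 2 := by simp [Finset.sum_add_distrib, hs]; ring
      _ ≤ _ := by rw [hρs]; nlinarith
  have hEV : (m : ℝ) / 4 ≤ E ρ vc := by
    set d : V → ℕ := fun v => (T.filter (fun e => v ∈ es e)).card with hd
    have hvsum : ∀ L, vc L
        = ∑ v, (1 - (if Disjoint (T.filter (fun e => v ∈ es e)) L then (1:ℝ) else 0)) := by
      intro L
      have : ∀ v, (1 - (if Disjoint (T.filter (fun e => v ∈ es e)) L then (1:ℝ) else 0))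
          = if v ∈ (T ∩ L).biUnion es then 1 else 0 := by
        intro v
        by_cases h : Disjoint (T.filter (fun e => v ∈ es e)) L
        · rw [if_pos h, if_neg]
          · simp
          · intro hv
            obtain ⟨e, he, hev⟩ := Finset.mem_biUnion.1 hv
            obtain ⟨heT, heL⟩ := Finset.mem_inter.1 he
            exact Finset.disjoint_left.1 h (Finset.mem_filter.2 ⟨heT, hev⟩) heL
        · rw [if_neg h, if_pos]
          · simp
          · obtain ⟨e, he, heL⟩ := Finset.not_disjoint_iff.1 h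
            obtain ⟨heT, hev⟩ := Finset.mem_filter.1 he
            exact Finset.mem_biUnion.2 ⟨e, Finset.mem_inter.2 ⟨heT, heL⟩, hev⟩
      rw [Finset.sum_congr rfl fun v _ => this v, Finset.sum_boole, Finset.filter_mem_eq_inter,
        Finset.univ_inter]
    rw [E_congr hvsum, E_sum]
    simp only [E_sub, E_const, E_disjoint]
    change (m : ℝ) / 4 ≤ ∑ v, (1 - (1 - ρ) ^ d v)
    set H := univ.filter (fun v => 1 ≤ ρ * d v) with hH
    have hg : ∀ v, (if v ∈ H then (1/2 : ℝ) else ρ * d v / 2) ≤ 1 - (1 - ρ) ^ d v := by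
      intro v
      refine le_trans ?_ (one_sub_pow_ge hρ0 hρ1 (d v))
      have hx : 0 ≤ (d v : ℝ) * ρ := by positivity
      rw [le_div_iff₀ (by positivity)]
      split <;> rename_i h <;> simp [hH] at h <;> nlinarith
    refine le_trans ?_ (Finset.sum_le_sum fun v _ => hg v)
    rw [Finset.sum_ite]
    simp only [Finset.sum_const, nsmul_eq_mul, Finset.filter_mem_eq_inter, Finset.univ_inter]
    set h := H.card
    rcases le_or_gt (m : ℝ) (2 * h) with hh | hh
    · have : 0 ≤ ∑ v ∈ univ.filter (fun v => v ∉ H), ρ * (d v : ℝ) / 2 :=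
        Finset.sum_nonneg fun v _ => by positivity
      linarith
    · have hhin : ((T.filter (fun e => es e ⊆ H)).card : ℝ) ≤ (h : ℝ) ^ r := by
        have : (T.filter (fun e => es e ⊆ H)).card ≤ (H.powersetCard r).card := by
          refine Finset.card_le_card_of_injOn es (fun e he => ?_) hinj.injOn
          simp only [Finset.mem_coe, Finset.mem_filter] at he
          simp [Finset.mem_powersetCard, he.2, hcard]
        rw [Finset.card_powersetCard] at this
        exact_mod_cast le_trans this (Nat.choose_le_pow ..)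
      have hpow : (h : ℝ) ^ r ≤ s / 4 := by
        calc (h : ℝ) ^ r ≤ ((m : ℝ) / 2) ^ r := pow_le_pow_left₀ (by positivity) (by linarith) r
          _ = (m : ℝ) ^ r / 2 ^ r := div_pow ..
          _ ≤ (m : ℝ) ^ r / 4 := by
              refine div_le_div_of_nonneg_left (by positivity) (by norm_num) ?_
              calc (4:ℝ) = 2 ^ 2 := by norm_num
                _ ≤ 2 ^ r := pow_le_pow_right₀ (by norm_num) hr
          _ ≤ _ := by
              refine div_le_div_of_nonneg_right ?_ (by norm_num)
              exact_mod_cast hms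
      have hout : ((T.filter (fun e => ¬es e ⊆ H)).card : ℝ)
          ≤ ∑ v ∈ univ.filter (fun v => v ∉ H), (d v : ℝ) := by
        have : (T.filter (fun e => ¬es e ⊆ H)).card
            ≤ ∑ v ∈ univ.filter (fun v => v ∉ H), d v := by
          simp only [hd, Finset.card_filter]
          rw [Finset.sum_comm]
          refine Finset.sum_le_sum fun e _ => ?_
          by_cases he : es e ⊆ H
          · simp [he]
          · rw [if_pos he]
            obtain ⟨v, hv, hvH⟩ := Finset.not_subset.1 he
            exact le_trans (le_of_eq (if_pos hv).symm) (Finset.single_le_sum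
              (f := fun v => if v ∈ es e then (1:ℕ) else 0) (fun i _ => Nat.zero_le _)
              (by simp [hvH]))
        exact_mod_cast this
      have hsplit : ((T.filter (fun e => es e ⊆ H)).card : ℝ)
          + ((T.filter (fun e => ¬es e ⊆ H)).card : ℝ) = s := by
        exact_mod_cast Finset.card_filter_add_card_filter_not (s := T) (fun e => es e ⊆ H)
      rw [← Finset.sum_div, ← Finset.mul_sum]
      have h34 : ρ * (3 * s / 4) ≤ ρ * ∑ v ∈ univ.filter (fun v => v ∉ H), (d v : ℝ) :=
        mul_le_mul_of_nonneg_left (by linarith) hρ0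
      have : ρ * (3 * s / 4) = 3 * m / 4 := by rw [← hρs]; ring
      have : (0:ℝ) ≤ h := Nat.cast_nonneg _
      linarith
  set P := E ρ (fun L => if T ∩ L ∈ goodSets es r m then (1:ℝ) else 0)
  have h1 : (r:ℝ) / D * E ρ (fun L => Z L ^ 2) ≤ m / 16 := by
    calc (r:ℝ) / D * E ρ (fun L => Z L ^ 2) ≤ r / D * (2 * (m:ℝ) ^ 2) :=
          mul_le_mul_of_nonneg_left hZ2 (by positivity)
      _ = _ := by rw [hDdef]; field_simp; ring
  have h2 : (m:ℝ) / 16 ≤ r * D * P := by linarith
  rw [hDdef] at h2
  rw [div_le_iff₀ (by positivity)]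
  nlinarith

end Vale.Agent.P063
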